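import Vale.Agent.P309.H362.Sweep

/-!
# P309: blocks, sweeps and the chain of sweeps
-/

open MeasureTheory ProbabilityTheory Metric Set Filter
open scoped ENNReal NNReal RealInnerProductSpace

namespace P309.LMS

variable {d N : ℕ}

lemma pow_gam_le (hd : 1 ≤ d) : (1 - gam d) ^ (800000 * d) ≤ 1 / 40 := by
  have hγ := gam_pos hd
  have hγ1 := gam_le hd
  have h1 : 1 - gam d ≤ Real.exp (-gam d) := by
    have := Real.add_one_le_exp (-gam d)
    linarith only [this]
  have h2 : (1 - gam d) ^ (800000 * d) ≤ Real.exp (-gam d) ^ (800000 * d) :=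
    pow_le_pow_left₀ (by linarith only [hγ1]) h1 _
  have h3 : Real.exp (-gam d) ^ (800000 * d) = Real.exp (-4) := by
    rw [← Real.exp_nat_mul]
    congr 1
    have := gam_mul hd
    push_cast
    linarith only [this]
  have h4 : (40 : ℝ) ≤ Real.exp 4 := by
    have h5 := Real.exp_one_gt_d9
    have h6 : Real.exp 4 = Real.exp 1 ^ 4 := by
      rw [← Real.exp_nat_mul]; norm_num
    rw [h6]
    calc (40 : ℝ) ≤ 2.7 ^ 4 := by norm_num
      _ ≤ _ := pow_le_pow_left₀ (by norm_num) (by linarith only [h5]) 4
  refine h2.trans ?_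
  rw [h3, Real.exp_neg, ← one_div]
  exact one_div_le_one_div_of_le (by norm_num) h4

/-- One block. -/
theorem blk (hd : 1 ≤ d) {u0 : Sph d} {ε h α W c : ℝ} {k L b : ℕ} (hh : 0 < h)
    (hLd : 7 * (200000 * d) ≤ L) {B : Finset (Fin d)} {a : Fin d → ℝ}
    (hR : Reach N u0 (gam d) ε k (Grid (sp h L ∅) 5) a c)
    (hC0 : Coded N (Grid (sp h L (∅ : Finset (Fin d))) 5)) (hC : Coded N (Grid (sp h L B) 5))
    (hc : 0 ≤ c) (ha : ∀ i ∈ B, a i = α) (ha1 : ∀ i, W / 10 ≤ a i) (hW : 8 / 6 ≤ W)
    (hα : W ≤ α) (hα2 : α ≤ 2 * W) (hb : B.card ≤ b) :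
    Reach N u0 (gam d) ε (k + 1 + 800000 * d) (Off h B)
      (fun i => if i ∈ B then W / 10 else a i + W * b / (100 * d))
      (c + 6 * W * b * h ^ 2) := by
  have hd0 : (0 : ℝ) < d := by exact_mod_cast hd
  have hL : 1 ≤ L := by omega
  have hL0 : (0 : ℝ) < L := by exact_mod_cast hL
  have hLd' : 7 * (200000 * (d : ℝ)) ≤ L := by exact_mod_cast hLd
  have hγ := gam_pos hd
  have hγ1 := gam_le hd
  have hγd := gam_mul hd
  have hW0 : 0 < W := by linarith only [hW]
  have hα0 : 0 < α := by linarith only [hW0, hα]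
  have hb' : (B.card : ℝ) ≤ b := by exact_mod_cast hb
  have hP := period (β := W / 10) (b := b) hd hh hL hR hC0 hC hc ha
    (fun i => le_trans (by linarith only [hW]) (ha1 i)) hα0.le (by linarith only [hW])
    (by linarith only [hα, hW0]) hb' (800000 * d)
  refine hP.mono subset_rfl ?_ ?_
  · intro i
    split_ifs with hi
    · apply max_le _ le_rfl
      have h1 := pow_gam_le hd
      have h2 : 2 * α * (1 - gam d) ^ (800000 * d) ≤ 2 * α * (1 / 40) := by gcongr
      linarith only [h2, hα2]
    · have h1 : ((96 + 192 * ((800000 * d : ℕ) : ℝ)) * α * b * gam d ^ 2) =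
          96 * (α * b * gam d) * gam d + 768 * (α * b * gam d) := by
        have h2 : ((800000 * d : ℕ) : ℝ) * gam d = 4 := by push_cast; linarith only [hγd]
        have h3 : 192 * ((800000 * d : ℕ) : ℝ) * α * b * gam d ^ 2 =
          192 * (((800000 * d : ℕ) : ℝ) * gam d) * (α * b * gam d) := by ring
        have h4 : (96 + 192 * ((800000 * d : ℕ) : ℝ)) * α * b * gam d ^ 2 =
          96 * (α * b * gam d) * gam d + 192 * ((800000 * d : ℕ) : ℝ) * α * b * gam d ^ 2 := by ring
        rw [h4, h3, h2]
        ring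
      rw [h1]
      have h5 : 0 ≤ α * b * gam d := by positivity
      have h6 : α * b * gam d ≤ 2 * W * b * gam d := by gcongr
      have h7 : W * b / (100 * d) = 2000 * (W * b * gam d) := by
        have e : gam d = 1 / (200000 * d) := rfl
        rw [e]
        field_simp
        ring
      have h8 : 96 * (α * b * gam d) * gam d ≤ 96 * (α * b * gam d) * 1 := by
        apply mul_le_mul_of_nonneg_left _ (by positivity)
        linarith only [hγ1]
      have h9 : 0 ≤ W * b * gam d := by positivity
      rw [h7]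
      linarith only [h6, h8, h9]
  · have h1 : ((800000 * d : ℕ) : ℝ) * (10 / gam d) * α * b * (h / L) ^ 2 ≤ α * b * h ^ 2 := by
      have e1 : ((800000 * d : ℕ) : ℝ) = 4 / gam d := by
        rw [eq_div_iff hγ.ne']
        push_cast
        linarith only [hγd]
      have e2 : 7 ≤ L * gam d := by nlinarith only [hLd', hγd, hγ]
      have e3 : (49 : ℝ) ≤ (L * gam d) ^ 2 := by nlinarith only [e2]
      have e4 : ((800000 * d : ℕ) : ℝ) * (10 / gam d) * α * b * (h / L) ^ 2 =
          (α * b * h ^ 2) * (40 / (L * gam d) ^ 2) := by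
        rw [e1]
        field_simp
        ring
      rw [e4]
      have e5 : 40 / (L * gam d) ^ 2 ≤ 1 := by
        rw [div_le_one (by positivity)]
        linarith only [e3]
      have e6 : 0 ≤ α * b * h ^ 2 := by positivity
      nlinarith only [e5, e6]
    have h2 : α * b * h ^ 2 ≤ 2 * W * b * h ^ 2 := by gcongr
    linarith only [h1, h2]

/-- One sweep over `K` blocks of size `b`. -/
theorem sweep (hd : 1 ≤ d) {u0 : Sph d} {ε h W c : ℝ} {k L b K : ℕ} (hh : 0 < h)
    (hLd : 7 * (200000 * d) ≤ L) (hb : 1 ≤ b) (hK1 : d ≤ K * b) (hK2 : K * b ≤ 2 * d)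
    (hC : ∀ B : Finset (Fin d), B.card ≤ b → Coded N (Grid (sp h L B) 5)) (hW : 8 / 6 ≤ W)
    (hc : 0 ≤ c) (hR : Reach N u0 (gam d) ε k (Grid (sp h L ∅) 5) (fun _ => W) c) :
    Reach N u0 (gam d) ε (k + K * (800000 * d + 1)) (Grid (sp h L ∅) 5) (fun _ => W / 8)
      (c + 12 * W * d * h ^ 2) := by
  have hd0 : (0 : ℝ) < d := by exact_mod_cast hd
  have hW0 : 0 < W := by linarith only [hW]
  have hK2' : (K : ℝ) * b ≤ 2 * d := by exact_mod_cast hK2
  set δ : ℝ := W * b / (100 * d) with hδ
  have hδ0 : 0 ≤ δ := by positivity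
  have hKδ : K * δ ≤ W / 50 := by
    have : K * δ = W / (100 * d) * (K * b) := by rw [hδ]; ring
    rw [this]
    calc W / (100 * d) * (K * b) ≤ W / (100 * d) * (2 * d) := by gcongr
      _ = W / 50 := by field_simp; norm_num
  have key : ∀ i : ℕ, i ≤ K → Reach N u0 (gam d) ε (k + i * (800000 * d + 1))
      (Grid (sp h L ∅) 5)
      (fun j : Fin d => (if (j : ℕ) / b < i then W / 10 else W) + i * δ)
      (c + i * (6 * W * b * h ^ 2)) := by
    intro i
    induction i with
    | zero =>
      intro _
      simpa using hR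
    | succ i ih =>
      intro hi
      have hi' : (i : ℝ) ≤ K := by exact_mod_cast (by omega : i ≤ K)
      have hiδ : (i : ℝ) * δ ≤ W / 50 := le_trans (by gcongr) hKδ
      have hiδ0 : 0 ≤ (i : ℝ) * δ := by positivity
      set B : Finset (Fin d) := Finset.univ.filter (fun j : Fin d => (j : ℕ) / b = i) with hB
      have hcard : B.card ≤ b := by
        have h1 : B.card ≤ (Finset.Ico (i * b) (i * b + b)).card := by
          apply Finset.card_le_card_of_injOn (fun j : Fin d => (j : ℕ))
          · intro j hj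
            have hj' : (j : ℕ) / b = i := by
              have := Finset.mem_coe.1 hj
              rw [hB, Finset.mem_filter] at this
              exact this.2
            have h2 := Nat.div_add_mod (j : ℕ) b
            have h3 := Nat.mod_lt (j : ℕ) (by omega : 0 < b)
            rw [hj', mul_comm] at h2
            rw [Finset.mem_coe, Finset.mem_Ico]
            change i * b ≤ (j : ℕ) ∧ (j : ℕ) < i * b + b
            omega
          · intro x _ y _ hxy
            exact Fin.ext hxy
        simpa using h1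
      have hP := blk (W := W) (α := W + i * δ) hd hh hLd (B := B) (ih (by omega))
        (hC ∅ (by simp)) (hC B hcard) (by positivity)
        (by
          intro j hj
          have hj' : (j : ℕ) / b = i := by
            rw [hB, Finset.mem_filter] at hj
            exact hj.2
          simp only [hj', lt_irrefl, if_false])
        (by
          intro j
          split_ifs
          · linarith only [hiδ0]
          · linarith only [hiδ0, hW0])
        hW (by linarith only [hiδ0]) (by linarith only [hiδ, hW0]) hcard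
      have e1 : k + (i + 1) * (800000 * d + 1) = k + i * (800000 * d + 1) + 1 + 800000 * d := by
        ring
      rw [e1]
      refine hP.mono (grid_empty_sub_off h L B) ?_ ?_
      · intro j
        by_cases hj : (j : ℕ) / b = i
        · have hjB : j ∈ B := by
            rw [hB, Finset.mem_filter]
            exact ⟨Finset.mem_univ _, hj⟩
          simp only [hjB, if_true, hj, Nat.lt_succ_self]
          have : 0 ≤ ((i + 1 : ℕ) : ℝ) * δ := by positivity
          linarith only [this]
        · have hjB : j ∉ B := by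
            rw [hB, Finset.mem_filter]
            exact fun h => hj h.2
          have h2 : ((j : ℕ) / b < i + 1) ↔ ((j : ℕ) / b < i) := by omega
          simp only [hjB, if_false, h2]
          push_cast
          linarith only []
      · push_cast
        linarith only []
  refine (key K le_rfl).mono subset_rfl ?_ ?_
  · intro j
    have h1 : (j : ℕ) / b < K := by
      apply Nat.div_lt_of_lt_mul
      have := j.2
      rw [mul_comm]
      omega
    simp only [h1, if_true]
    linarith only [hKδ, hW0]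
  · have h1 : (K : ℝ) * (6 * W * b * h ^ 2) = 6 * W * h ^ 2 * (K * b) := by ring
    have h2 : 6 * W * h ^ 2 * (K * b) ≤ 6 * W * h ^ 2 * (2 * d) := by gcongr
    rw [h1]
    linarith only [h2]

/-- The chain of sweeps. -/
theorem chain (hd : 1 ≤ d) (u0 : Sph d) {ε h0 : ℝ} (hε0 : 0 < ε) (hε1 : ε ≤ 1 / 2) {L : ℕ}
    (hh : 0 < h0) (hLd : 7 * (200000 * d) ≤ L) (m : ℕ) (hm : 96 / ε ^ 2 ≤ 8 ^ m) (b K : ℕ → ℕ)
    (hb : ∀ r, 1 ≤ b r) (hK1 : ∀ r, d ≤ K r * b r) (hK2 : ∀ r, K r * b r ≤ 2 * d)
    (hC : ∀ r < m, ∀ B : Finset (Fin d), B.card ≤ b r →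
      Coded N (Grid (sp (2 ^ r * h0) L B) 5)) :
    ∀ r, r ≤ m → Reach N u0 (gam d) ε ((∑ i ∈ Finset.range r, K i) * (800000 * d + 1))
      (Grid (sp (2 ^ r * h0) L ∅) 5) (fun _ => 8 ^ (m - r) / 6)
      (4 * 8 ^ m * d * h0 ^ 2 * (1 - (1 / 2) ^ r)) := by
  intro r
  induction r with
  | zero =>
    intro _
    simp only [Finset.range_zero, Finset.sum_empty, zero_mul, pow_zero, one_mul, Nat.sub_zero,
      sub_self, mul_zero]
    refine Reach.zero u0 (gam d) hε0 hε1 _ ?_ le_rfl
    intro _
    have : 16 / ε ^ 2 = 96 / ε ^ 2 / 6 := by ring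
    rw [this]
    gcongr
  | succ r ih =>
    intro hr
    have hd0 : (0 : ℝ) < d := by exact_mod_cast hd
    have h1 : (1 / 2 : ℝ) ^ r ≤ 1 := pow_le_one₀ (by norm_num) (by norm_num)
    have hmr : m - r = (m - (r + 1)) + 1 := by omega
    have h := sweep (W := 8 ^ (m - r) / 6) (b := b r) (K := K r) hd
      (by positivity : 0 < 2 ^ r * h0) hLd (hb r) (hK1 r) (hK2 r) (hC r (by omega))
      (by
        have : (8 : ℝ) ^ 1 ≤ 8 ^ (m - r) := pow_le_pow_right₀ (by norm_num) (by omega)
        rw [pow_one] at this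
        linarith only [this])
      (by
        have : 0 ≤ 1 - (1 / 2 : ℝ) ^ r := by linarith only [h1]
        positivity) (ih (by omega))
    rw [Finset.sum_range_succ, add_mul]
    refine h.mono ?_ ?_ ?_
    · intro z hz
      refine ⟨hz.1, fun i => ?_⟩
      obtain ⟨q, hq⟩ := hz.2 i
      refine ⟨2 * q, ?_⟩
      rw [hq]
      simp only [sp, Finset.notMem_empty, if_false]
      push_cast
      ring
    · intro _
      rw [hmr, pow_succ]
      apply le_of_eq
      ring
    · have e1 : (8 : ℝ) ^ (m - r) * (2 ^ r) ^ 2 = 8 ^ m * (1 / 2) ^ r := by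
        have h2 : (8 : ℝ) ^ m = 8 ^ (m - r) * 8 ^ r := by
          rw [← pow_add]
          congr 1
          omega
        rw [h2, mul_assoc, ← mul_pow, ← pow_mul, mul_comm r 2, pow_mul]
        norm_num
      have e2 : 12 * ((8 : ℝ) ^ (m - r) / 6) * d * (2 ^ r * h0) ^ 2 =
          2 * (8 ^ (m - r) * (2 ^ r) ^ 2) * d * h0 ^ 2 := by ring
      rw [e2, e1, pow_succ]
      apply le_of_eq
      ring

end P309.LMS
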