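import Vale.Agent.P309.H362.Prog

/-!
# P309: storing grid points
-/

open MeasureTheory ProbabilityTheory Metric Set Filter
open scoped ENNReal NNReal RealInnerProductSpace

namespace P309.LMS

variable {d N : ℕ}

lemma coded_of_card {S : Set (Vec d)} (hS : S.Finite) (h : S.ncard ≤ N) (hN : 0 < N) :
    Coded N S := by
  classical
  have hft : Fintype S := hS.fintype
  have hcard : Fintype.card S ≤ Fintype.card (Fin N) := by
    rw [Fintype.card_fin, ← Nat.card_eq_fintype_card, Nat.card_coe_set_eq]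
    exact h
  obtain ⟨f⟩ := Function.Embedding.nonempty_of_card_le hcard
  have hne : Nonempty (Fin N) := ⟨⟨0, hN⟩⟩
  set cd : Vec d → Fin N := fun v => if h : v ∈ S then f ⟨v, h⟩ else ⟨0, hN⟩ with hcd
  have hinj : InjOn cd S := by
    intro v hv w hw hvw
    simp only [hcd, dif_pos hv, dif_pos hw] at hvw
    exact congrArg Subtype.val (f.injective hvw)
  refine ⟨fun q => Function.invFunOn cd S q, cd, ?_, fun v hv => hinj.leftInvOn_invFunOn hv⟩
  apply measurable_to_countable'
  intro q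
  have h1 : cd ⁻¹' {q} = (cd ⁻¹' {q} ∩ S) ∪ (cd ⁻¹' {q} ∩ Sᶜ) := by
    rw [← inter_union_distrib_left, union_compl_self, inter_univ]
  rw [h1]
  refine (hS.subset inter_subset_right).measurableSet.union ?_
  by_cases hq : q = ⟨0, hN⟩
  · have : cd ⁻¹' {q} ∩ Sᶜ = Sᶜ := by
      ext v
      simp only [mem_inter_iff, mem_preimage, mem_singleton_iff, mem_compl_iff,
        and_iff_right_iff_imp]
      intro hv
      simp only [hcd, dif_neg hv, hq]
    rw [this]
    exact hS.measurableSet.compl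
  · have : cd ⁻¹' {q} ∩ Sᶜ = ∅ := by
      ext v
      simp only [mem_inter_iff, mem_preimage, mem_singleton_iff, mem_compl_iff,
        mem_empty_iff_false, iff_false, not_and, not_not]
      intro hv
      by_contra hvS
      simp only [hcd, dif_neg hvS] at hv
      exact hq hv.symm
    rw [this]
    exact MeasurableSet.empty

/-- The spacings with a fine block. -/
noncomputable def sp (h : ℝ) (L : ℕ) (B : Finset (Fin d)) : Fin d → ℝ :=
  fun i => if i ∈ B then h / L else h

lemma grid_card {h : ℝ} (hh : 0 < h) {L : ℕ} (hL : 1 ≤ L) (B : Finset (Fin d)) {m : ℕ}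
    (hm : 1 ≤ m) (hb : 50 + 2 * d * h ^ 2 ≤ d * m ^ 2 * h ^ 2) :
    (Grid (sp h L B) 5).Finite ∧
      ((Grid (sp h L B) 5).ncard : ℝ) ≤ (Real.exp 1 * (6 * m)) ^ d * L ^ B.card := by
  classical
  have hL0 : (0 : ℝ) < L := by exact_mod_cast hL
  have hLz : (0 : ℤ) < L := by exact_mod_cast hL
  have hne : NeZero L := ⟨by omega⟩
  obtain ⟨hfin, hcard⟩ := lattice_count d m hm 1 (by norm_num)
  set Q : Set (Fin d → ℤ) := {b : Fin d → ℤ | ∑ a, ((b a : ℝ)) ^ 2 ≤ 1 * d * m ^ 2} with hQ
  set k : Vec d → Fin d → ℤ := fun v i => ⌊v i / sp h L B i⌋ with hk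
  have hsp : ∀ i, 0 < sp h L B i := by
    intro i
    unfold sp
    split_ifs <;> positivity
  have hkv : ∀ v ∈ Grid (sp h L B) 5, ∀ i, v i = sp h L B i * k v i := by
    intro v hv i
    obtain ⟨m, hm⟩ := hv.2 i
    have : v i / sp h L B i = m := by
      rw [hm]
      have := (hsp i).ne'
      field_simp
    simp only [hk]
    rw [this, Int.floor_intCast]
    exact hm
  set Φ : Vec d → (Fin d → ℤ) × (B → Fin L) := fun v =>
    (fun i => if i ∈ B then k v i / L else k v i, fun i => Fin.ofNat L (k v i % L).toNat) with hΦ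
  have hmap : ∀ v ∈ Grid (sp h L B) 5, Φ v ∈ Q ×ˢ (univ : Set (B → Fin L)) := by
    intro v hv
    refine ⟨?_, mem_univ _⟩
    have h1 : ∀ i, h ^ 2 * (((Φ v).1 i : ℤ) : ℝ) ^ 2 ≤ 2 * (v i) ^ 2 + 2 * h ^ 2 := by
      intro i
      have hvi := hkv v hv i
      simp only [hΦ]
      split_ifs with hi
      · have h2 : ((k v i : ℤ) : ℝ) = L * ((k v i / L : ℤ) : ℝ) + ((k v i % L : ℤ) : ℝ) := by
          have := Int.mul_ediv_add_emod (k v i) L
          exact_mod_cast this.symm
        have h3 : (0 : ℝ) ≤ ((k v i % L : ℤ) : ℝ) := by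
          exact_mod_cast Int.emod_nonneg _ hLz.ne'
        have h4 : ((k v i % L : ℤ) : ℝ) ≤ L := by
          exact_mod_cast (Int.emod_lt_of_pos (k v i) hLz).le
        have h5 : sp h L B i = h / L := by simp [sp, hi]
        rw [h5, h2] at hvi
        set r : ℝ := ((k v i % L : ℤ) : ℝ) with hr
        set q : ℝ := ((k v i / L : ℤ) : ℝ) with hq
        have h6 : h * q = v i - h * (r / L) := by
          rw [hvi]
          field_simp
          ring
        have h7 : 0 ≤ r / L := by positivity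
        have h8 : r / L ≤ 1 := by
          rw [div_le_one hL0]; exact h4
        have h9 : h ^ 2 * q ^ 2 = (v i - h * (r / L)) ^ 2 := by rw [← h6]; ring
        have h10 : (v i - h * (r / L)) ^ 2 ≤ 2 * (v i) ^ 2 + 2 * (h * (r / L)) ^ 2 := by
          nlinarith only [sq_nonneg (v i + h * (r / L))]
        have h11 : (h * (r / L)) ^ 2 ≤ h ^ 2 := by
          apply pow_le_pow_left₀ (by positivity)
          nlinarith only [h8, hh]
        rw [h9]
        linarith only [h10, h11]
      · have h5 : sp h L B i = h := by simp [sp, hi]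
        rw [h5] at hvi
        rw [hvi]
        nlinarith only [sq_nonneg (h * (k v i : ℝ)), sq_nonneg h]
    have h2 : h ^ 2 * ∑ i, (((Φ v).1 i : ℤ) : ℝ) ^ 2 ≤ 2 * ‖v‖ ^ 2 + d * (2 * h ^ 2) := by
      rw [Finset.mul_sum, norm_sq_eq, Finset.mul_sum]
      calc ∑ i, h ^ 2 * (((Φ v).1 i : ℤ) : ℝ) ^ 2 ≤ ∑ i, (2 * (v i) ^ 2 + 2 * h ^ 2) :=
            Finset.sum_le_sum fun i _ => h1 i
        _ = _ := by
            rw [Finset.sum_add_distrib, Finset.sum_const, Finset.card_univ, Fintype.card_fin,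
              nsmul_eq_mul]
    have h3 : ‖v‖ ^ 2 ≤ 25 := by
      have := pow_le_pow_left₀ (norm_nonneg v) hv.1 2
      linarith only [this]
    have h4 : h ^ 2 * ∑ i, (((Φ v).1 i : ℤ) : ℝ) ^ 2 ≤ h ^ 2 * (1 * d * m ^ 2) := by
      nlinarith only [h2, h3, hb]
    exact le_of_mul_le_mul_left h4 (by positivity)
  have hinj : InjOn Φ (Grid (sp h L B) 5) := by
    intro v hv w hw hvw
    have h1 : ∀ i, k v i = k w i := by
      intro i
      have e1 := congrFun (congrArg Prod.fst hvw) i
      simp only [hΦ] at e1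
      by_cases hi : i ∈ B
      · rw [if_pos hi, if_pos hi] at e1
        have e2 := congrFun (congrArg Prod.snd hvw) ⟨i, hi⟩
        simp only [hΦ] at e2
        have e3 := congrArg Fin.val e2
        simp only [Fin.val_ofNat] at e3
        have a1 := Int.emod_nonneg (k v i) hLz.ne'
        have a2 := Int.emod_lt_of_pos (k v i) hLz
        have b1 := Int.emod_nonneg (k w i) hLz.ne'
        have b2 := Int.emod_lt_of_pos (k w i) hLz
        rw [Nat.mod_eq_of_lt (by omega), Nat.mod_eq_of_lt (by omega)] at e3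
        have e4 : k v i % L = k w i % L := by omega
        rw [← Int.mul_ediv_add_emod (k v i) L, ← Int.mul_ediv_add_emod (k w i) L, e1, e4]
      · rw [if_neg hi, if_neg hi] at e1
        exact e1
    ext i
    rw [hkv v hv i, hkv w hw i, h1 i]
  have hT : (Q ×ˢ (univ : Set (B → Fin L))).Finite := hfin.prod finite_univ
  refine ⟨Set.Finite.of_injOn hmap hinj hT, ?_⟩
  have h1 : (Grid (sp h L B) 5).ncard ≤ (Q ×ˢ (univ : Set (B → Fin L))).ncard :=
    Set.ncard_le_ncard_of_injOn Φ hmap hinj hT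
  rw [Set.ncard_prod, Set.ncard_univ, Nat.card_eq_fintype_card, Fintype.card_fun,
    Fintype.card_fin, Fintype.card_coe] at h1
  calc ((Grid (sp h L B) 5).ncard : ℝ) ≤ ((Q.ncard * L ^ B.card : ℕ) : ℝ) := by exact_mod_cast h1
    _ = (Q.ncard : ℝ) * L ^ B.card := by push_cast; ring
    _ ≤ _ := by gcongr

/-- Sufficient condition for storing the grid with a fine block. -/
theorem coded_grid {h : ℝ} (hh : 0 < h) {L : ℕ} (hL : 1 ≤ L) (B : Finset (Fin d)) {m : ℕ}
    (hm : 1 ≤ m) (hb : 50 + 2 * d * h ^ 2 ≤ d * m ^ 2 * h ^ 2)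
    (hN : (Real.exp 1 * (6 * m)) ^ d * L ^ B.card ≤ N) : Coded N (Grid (sp h L B) 5) := by
  obtain ⟨h1, h2⟩ := grid_card hh hL B hm hb
  have hm0 : (0 : ℝ) < m := by exact_mod_cast hm
  have hL0 : (0 : ℝ) < L := by exact_mod_cast hL
  refine coded_of_card h1 (by exact_mod_cast h2.trans hN) ?_
  have : (0 : ℝ) < N := lt_of_lt_of_le (by positivity) hN
  exact_mod_cast this

end P309.LMS
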