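import Vale.Agent.P309.Bdl.B1

/-!
# P309: exponentially small success probability below `c d log (1/ε)` samples
-/

open MeasureTheory ProbabilityTheory Metric Set Filter
open scoped ENNReal NNReal RealInnerProductSpace

namespace P309.LMS

/-- The volumetric regime. -/
lemma vol_regime {C : ℝ} (hC : 0 < C) {d : ℕ} (hd : (32768 : ℝ) ≤ d) {ε Λ : ℝ} (hε : 0 < ε)
    (hlogε : Real.log ε = -Λ) {N : ℕ} (hN : 1 ≤ N)
    (hNC : (N : ℝ) ≤ (2:ℝ) ^ (C * (d:ℝ) ^ 2)) {T : ℕ}
    (hT : (T : ℝ) < d * Λ / (64 * (60 + 23 * C))) (hΛ : (2 * C + 6) * d < Λ) :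
    N * (T + 1) * (6 ^ d * ε ^ (d - 1)) ≤ Real.exp (-((d : ℝ) / 16)) := by
  have hdpos : (0 : ℝ) < d := by linarith only [hd]
  have hd1 : 1 ≤ d := by exact_mod_cast (by linarith only [hd] : (1 : ℝ) ≤ d)
  have hNpos : (0 : ℝ) < N := by exact_mod_cast hN
  have hΛpos : 0 < Λ := lt_trans (by positivity) hΛ
  have hlogN : Real.log N ≤ C * (d : ℝ) ^ 2 := by
    have h1 := Real.log_le_log hNpos hNC
    rw [Real.log_rpow (by norm_num)] at h1
    have h2 : Real.log 2 ≤ 1 := by have := Real.log_two_lt_d9; linarith only [this]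
    have h3 : 0 ≤ C * (d : ℝ) ^ 2 := by positivity
    nlinarith only [h1, h2, h3]
  have hT1 : (0 : ℝ) < T + 1 := by positivity
  rw [← Real.log_le_iff_le_exp (by positivity)]
  rw [Real.log_mul (by positivity) (by positivity), Real.log_mul (by positivity) (by positivity),
    Real.log_mul (by positivity) (by positivity), Real.log_pow, Real.log_pow, hlogε]
  have h3 : Real.log ((T : ℝ) + 1) ≤ d * Λ / (64 * (60 + 23 * C)) := by
    have := Real.log_le_sub_one_of_pos hT1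
    linarith only [hT, this]
  have h4 : d * Λ / (64 * (60 + 23 * C)) ≤ d * Λ / 3200 := by
    apply div_le_div_of_nonneg_left (by positivity) (by norm_num)
    nlinarith only [hC]
  have h5 : (((d - 1 : ℕ) : ℕ) : ℝ) = d - 1 := by
    rw [Nat.cast_sub hd1]; norm_num
  rw [h5]
  have h6 : (d : ℝ) * Real.log 6 ≤ d * 2 := by
    apply mul_le_mul_of_nonneg_left log_six_le hdpos.le
  have h7 : (d : ℝ) * ((2 * C + 6) * d) ≤ d * Λ := by gcongr
  nlinarith only [hd, hlogN, h3, h4, h6, h7, hC, hΛpos]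

/-- The loss factor of one block with an exponentially small parameter. -/
lemma logA_le {C : ℝ} (hC : 0 < C) {d n m : ℕ} (hd : (32768 : ℝ) ≤ d)
    (hnr : (8 : ℝ) * n ≤ d) (hmr : (m : ℝ) ≤ 16 * C * d + 2) :
    Real.log (4 * 10 ^ (10 * d + 17 * n) * (1 / Real.exp (-((d : ℝ) / 8))) ^ 11 * 4 ^ m) ≤
      (60 + 23 * C) * d := by
  have hdpos : (0 : ℝ) < d := by linarith
  rw [Real.log_mul (by positivity) (by positivity), Real.log_mul (by positivity)
    (by positivity), Real.log_mul (by positivity) (by positivity), Real.log_pow, Real.log_pow,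
    Real.log_pow, one_div, Real.log_inv, Real.log_exp]
  push_cast
  have h4 := log_four_le
  have h10 := log_ten_le
  have h4' : 0 ≤ Real.log 4 := Real.log_nonneg (by norm_num)
  have h10' : 0 ≤ Real.log 10 := Real.log_nonneg (by norm_num)
  have t1 : (10 * (d : ℝ) + 17 * n) * Real.log 10 ≤ (12.125 * d) * 2.4 := by
    apply mul_le_mul _ h10 h10' (by positivity)
    linarith only [hnr]
  have t2 : (m : ℝ) * Real.log 4 ≤ (16 * C * d + 2) * 1.4 := by
    apply mul_le_mul hmr h4 h4' (by positivity)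
  have hCd : 0 < C * d := by positivity
  linarith

/-- The error term. -/
lemma err_le {d n J : ℕ} (hd : (32768 : ℝ) ≤ d) (hn : (d : ℝ) < 8 * n + 8)
    (hJ2d : (J : ℝ) ≤ 2 * d) :
    (J : ℝ) * (8 * Real.exp (-((d : ℝ) / 8)) + Real.exp (-(n : ℝ))) ≤
      1 / 2 * Real.exp (-((d : ℝ) / 16)) := by
  set u := Real.exp (-((d : ℝ) / 16)) with hu
  have hu0 : 0 < u := Real.exp_pos _
  have h8 : Real.exp (-((d : ℝ) / 8)) = u * u := by
    rw [hu, ← Real.exp_add]; congr 1; ring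
  have hn' : Real.exp (-(n : ℝ)) ≤ 3 * (u * u) := by
    have h1 : Real.exp (-(n : ℝ)) ≤ Real.exp (1 + -((d : ℝ) / 8)) := by
      apply Real.exp_le_exp.2
      linarith only [hn]
    rw [Real.exp_add, h8] at h1
    have h2 := Real.exp_one_lt_d9
    nlinarith only [h1, h2, hu0, mul_pos hu0 hu0]
  have hud : 44 * d * u ≤ 1 := by
    have h1 : ((d : ℝ) / 16) ^ 2 / 2 ≤ Real.exp ((d : ℝ) / 16) := by
      have := Real.quadratic_le_exp_of_nonneg (by positivity : (0 : ℝ) ≤ (d : ℝ) / 16)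
      linarith only [this, hd]
    have h2 : Real.exp ((d : ℝ) / 16) * u = 1 := by
      rw [hu, ← Real.exp_add]; simp
    have h3 : 44 * (d : ℝ) ≤ Real.exp ((d : ℝ) / 16) := by nlinarith only [h1, hd]
    calc 44 * d * u ≤ Real.exp ((d : ℝ) / 16) * u := by gcongr
      _ = 1 := h2
  rw [h8]
  calc (J : ℝ) * (8 * (u * u) + Real.exp (-(n : ℝ))) ≤ (2 * d) * (8 * (u * u) + 3 * (u * u)) := by
        gcongr
    _ = 1 / 2 * (44 * d * u) * u := by ring
    _ ≤ 1 / 2 * 1 * u := by gcongr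
    _ = _ := by ring

/-- The main term. -/
lemma main_le {C₂ : ℝ} (hC₂ : 0 < C₂) {d e J : ℕ} (hd : (32768 : ℝ) ≤ d) {ε Λ A : ℝ}
    (hε : 0 < ε) (hlogε : Real.log ε = -Λ) (hΛ : 4 * (C₂ + 4) ≤ Λ) (hA : 0 < A)
    (hlogA : Real.log A ≤ C₂ * d) (hJr : (J : ℝ) ≤ Λ / (4 * C₂) + 1)
    (her : (d : ℝ) / 2 ≤ e) : A ^ J * (6 ^ d * ε ^ e) ≤ 1 / 2 * Real.exp (-((d : ℝ) / 16)) := by
  have hdpos : (0 : ℝ) < d := by linarith only [hd]
  have h1 : A ^ J * (6 ^ d * ε ^ e) ≤ Real.exp (-(2 * (d : ℝ))) := by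
    rw [← Real.log_le_iff_le_exp (by positivity)]
    rw [Real.log_mul (by positivity) (by positivity), Real.log_mul (by positivity) (by positivity),
      Real.log_pow, Real.log_pow, Real.log_pow, hlogε]
    have hmain : (J : ℝ) * Real.log A ≤ (Λ / (4 * C₂) + 1) * (C₂ * d) := by
      calc (J : ℝ) * Real.log A ≤ J * (C₂ * d) := by (clear * - hlogA; gcongr)
        _ ≤ _ := by gcongr
    have hmain2 : (Λ / (4 * C₂) + 1) * (C₂ * d) = d * Λ / 4 + C₂ * d := by
      (clear * - hC₂ hd; field_simp)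
    have h6 : (d : ℝ) * Real.log 6 ≤ d * 2 := mul_le_mul_of_nonneg_left log_six_le hdpos.le
    have heΛ : (d : ℝ) / 2 * Λ ≤ e * Λ := by
      apply mul_le_mul_of_nonneg_right her
      linarith only [hC₂, hΛ]
    nlinarith only [heΛ, hΛ, hmain, hmain2, h6, hdpos]
  have h2 : Real.exp (-(2 * (d : ℝ))) = Real.exp (-(31 / 16 * (d : ℝ))) *
      Real.exp (-((d : ℝ) / 16)) := by
    rw [← Real.exp_add]; congr 1; ring
  have h3 : Real.exp (-(31 / 16 * (d : ℝ))) ≤ 1 / 2 := by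
    have h4 : Real.exp (-(31 / 16 * (d : ℝ))) ≤ Real.exp (-1) := by
      apply Real.exp_le_exp.2
      linarith only [hd]
    have h5 := Real.exp_neg_one_lt_d9
    linarith only [h4, h5]
  rw [h2] at h1
  refine h1.trans ?_
  gcongr

/-- **Strong converse**: with less than `c d log (1/ε)` samples the success probability is
exponentially small. -/
theorem converse (C : ℝ) (hC : 0 < C) : ∃ c : ℝ, 0 < c ∧ ∃ d₀ : ℕ, 16 ≤ d₀ ∧
    ∃ ε₀ : ℝ, 0 < ε₀ ∧ ε₀ < 1 ∧ ∀ d : ℕ, d₀ ≤ d → ∀ ε : ℝ, 0 < ε → ε ≤ ε₀ → ∀ N : ℕ,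
      (N : ℝ) ≤ (2:ℝ) ^ (C * (d:ℝ) ^ 2) → ∀ (L : Learner (Vec d) N) (T : ℕ),
        (T : ℝ) < c * d * Real.log (1 / ε) →
        ∫⁻ s : Sph d, ∫⁻ q, L.win ε T 0 q (s : Vec d) ∂L.init ∂(unifSphere (Vec d)) ≤
          ENNReal.ofReal (Real.exp (-((d : ℝ) / 16))) := by
  have hC₂pos : (0 : ℝ) < 60 + 23 * C := by positivity
  refine ⟨1 / (64 * (60 + 23 * C)), by positivity, 32768, by norm_num,
    Real.exp (-(4 * ((60 + 23 * C) + 4))),
    Real.exp_pos _, by rw [Real.exp_lt_one_iff]; linarith, ?_⟩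
  intro d hd ε hε hεe N hNC L T hcon
  have hN : 1 ≤ N := by
    rcases Nat.eq_zero_or_pos N with h0 | h0
    · subst h0
      have h1 : L.init univ = 1 := measure_univ
      have h2 : (univ : Set (Fin 0)) = ∅ := Subsingleton.elim _ _
      rw [h2, measure_empty] at h1
      exact absurd h1 zero_ne_one
    · exact h0
  obtain ⟨Λ, hΛdef⟩ : ∃ Λ : ℝ, Λ = Real.log (1 / ε) := ⟨_, rfl⟩
  rw [← hΛdef] at hcon
  have hlogε : Real.log ε = -Λ := by rw [hΛdef, one_div, Real.log_inv]; ring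
  have hΛ : 4 * ((60 + 23 * C) + 4) ≤ Λ := by
    have := Real.log_le_log hε hεe
    rw [Real.log_exp, hlogε] at this
    linarith only [this]
  have hΛpos : 0 < Λ := by linarith only [hC, hΛ]
  have hd' : (32768 : ℝ) ≤ d := by exact_mod_cast hd
  have hT : (T : ℝ) < d * Λ / (64 * (60 + 23 * C)) := by
    calc (T : ℝ) < 1 / (64 * (60 + 23 * C)) * d * Λ := hcon
      _ = d * Λ / (64 * (60 + 23 * C)) := by ring
  rcases lt_or_ge ((2 * C + 6) * (d : ℝ)) Λ with hbig | hsmall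
  · refine (L.success_le_vol (by omega) ε hε T).trans ?_
    have h2 : ((T : ℝ≥0∞) + 1) * (N * ENNReal.ofReal (6 ^ d * ε ^ (d - 1))) =
        ENNReal.ofReal (N * (T + 1) * (6 ^ d * ε ^ (d - 1))) := by
      have hx : (0 : ℝ) ≤ 6 ^ d * ε ^ (d - 1) := by positivity
      generalize (6 : ℝ) ^ d * ε ^ (d - 1) = x at hx ⊢
      rw [ENNReal.ofReal_mul (by (clear * - hN; positivity)), ENNReal.ofReal_mul (by positivity),
        ENNReal.ofReal_natCast, ENNReal.ofReal_add (by positivity) (by norm_num),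
        ENNReal.ofReal_natCast, ENNReal.ofReal_one]
      ring
    rw [h2]
    exact ENNReal.ofReal_le_ofReal (vol_regime hC hd' hε hlogε hN hNC hT hbig)
  · obtain ⟨n, hn⟩ : ∃ n : ℕ, n = d / 8 := ⟨_, rfl⟩
    have hn8 : 8 * n ≤ d := by omega
    have hn8' : d < 8 * n + 8 := by omega
    have hn1 : 1 ≤ n := by omega
    have hnr : (8 : ℝ) * n ≤ d := by exact_mod_cast hn8
    have hnr' : (d : ℝ) < 8 * n + 8 := by exact_mod_cast hn8'
    have hn16 : (d : ℝ) / 16 ≤ n := by linarith only [hd', hnr']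
    obtain ⟨hTJ, hJr⟩ := numeric_blocks (60 + 23 * C) hC₂pos d n T Λ
      (by linarith only [hd']) hn1 hn16 hΛpos hT
    obtain ⟨J, hJ⟩ : ∃ J : ℕ, J = T / n + 1 := ⟨_, rfl⟩
    rw [← hJ] at hTJ hJr
    have hJ2d : (J : ℝ) ≤ 2 * d := by
      have h1 : Λ / (4 * (60 + 23 * C)) ≤ d := by
        rw [div_le_iff₀ (by positivity)]
        calc Λ ≤ (2 * C + 6) * d := hsmall
          _ ≤ d * (4 * (60 + 23 * C)) := by nlinarith only [hC, hd']
      linarith only [hd', hJr, h1]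
    obtain ⟨m, hm⟩ : ∃ m : ℕ, m = ⌈16 * C * d⌉₊ + 1 := ⟨_, rfl⟩
    have hmr : (m : ℝ) ≤ 16 * C * d + 2 := by
      rw [hm]
      push_cast
      have := Nat.ceil_lt_add_one (by positivity : (0 : ℝ) ≤ 16 * C * d)
      linarith only [this]
    have hη : 0 < Real.exp (-((d : ℝ) / 8)) := Real.exp_pos _
    have hη1 : Real.exp (-((d : ℝ) / 8)) ≤ 1 := by
      rw [Real.exp_le_one_iff]
      linarith only [hd']
    have hmem := numeric_mem C d n hn16 N hNC
    rw [← hm] at hmem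
    have hmem' : N * (n + 1) ≤ 2 ^ (m * n) := by exact_mod_cast hmem
    rw [hn] at hTJ hmem'
    refine (L.success_le_block (by omega) ε hε hN T J m hTJ
      (ENNReal.ofReal (Real.exp (-((d : ℝ) / 8)))) (by simpa using hη) (by simpa using hη1)
      hmem').trans ?_
    rw [← hn]
    generalize hηdef : Real.exp (-((d : ℝ) / 8)) = η at hη hη1 ⊢
    have h2 : (J : ℝ≥0∞) * (8 * ENNReal.ofReal η +
        ENNReal.ofReal (Real.exp (-(n : ℝ)))) +
        gam d n m (ENNReal.ofReal η) ^ J *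
          ENNReal.ofReal (6 ^ d * ε ^ (d - 1 - (3 * n + 3))) =
        ENNReal.ofReal (J * (8 * η + Real.exp (-(n : ℝ))) +
       (4 * 10 ^ (10 * d + 17 * n) * (1 / η) ^ 11 * 4 ^ m) ^ J *
        (6 ^ d * ε ^ (d - 1 - (3 * n + 3)))) := by
      unfold gam
      have hx : (0 : ℝ) ≤ 6 ^ d * ε ^ (d - 1 - (3 * n + 3)) := by positivity
      generalize (6 : ℝ) ^ d * ε ^ (d - 1 - (3 * n + 3)) = x at hx ⊢
      have hy : (0 : ℝ) ≤ Real.exp (-(n : ℝ)) := by positivity
      generalize Real.exp (-(n : ℝ)) = y at hy ⊢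
      rw [ENNReal.ofReal_add (by (clear * - hη hy; positivity)) (by positivity),
        ENNReal.ofReal_mul (by positivity),
        ENNReal.ofReal_natCast, ENNReal.ofReal_add (by positivity) (by positivity),
        ENNReal.ofReal_mul (by norm_num), ENNReal.ofReal_mul (by positivity),
        ENNReal.ofReal_pow (by positivity),
        ENNReal.ofReal_mul (by positivity), ENNReal.ofReal_mul (by positivity),
        ENNReal.ofReal_mul (by positivity), ENNReal.ofReal_pow (by positivity),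
        ENNReal.ofReal_pow (by positivity), ENNReal.ofReal_pow (by positivity),
        one_div, ENNReal.ofReal_inv_of_pos hη]
      simp only [ENNReal.ofReal_ofNat]
    rw [h2]
    apply ENNReal.ofReal_le_ofReal
    have her : (d : ℝ) / 2 ≤ (d - 1 - (3 * n + 3) : ℕ) := by
      rw [Nat.cast_sub (by (clear * - hd hn; omega)), Nat.cast_sub (by omega)]
      push_cast
      linarith only [hd', hnr]
    have h3 := err_le (J := J) hd' hnr' hJ2d
    rw [hηdef] at h3
    have hA := logA_le (m := m) hC hd' hnr hmr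
    rw [hηdef] at hA
    have h4 := main_le hC₂pos (J := J) hd' hε hlogε hΛ
      (A := 4 * 10 ^ (10 * d + 17 * n) * (1 / η) ^ 11 * 4 ^ m) (by positivity) hA hJr her
    linarith only [h3, h4]

end P309.LMS
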