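import Vale.Agent.P309.HorizonDefs

/-!
# P309: success probabilities
-/

open MeasureTheory
open scoped ENNReal

namespace P309

variable {E : Type} [NormedAddCommGroup E] [InnerProductSpace ℝ E] [FiniteDimensional ℝ E]
  [MeasurableSpace E] [BorelSpace E] {N : ℕ}

/-- The probability that the learner run with horizon `T` outputs a vector at angle at most `ε` from
the signal `s`. -/
noncomputable def Learner.successAt (L : Learner E N) (T : ℕ) (ε : ℝ) (s : E) : ℝ≥0∞ :=
  ∫⁻ q, L.win ε T 0 q s ∂L.init

/-- The success probability for a uniformly random signal (`L.Succeeds T ε` says that it is at least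
`2/3`). -/
noncomputable def Learner.successProb (L : Learner E N) (T : ℕ) (ε : ℝ) : ℝ≥0∞ :=
  ∫⁻ s, L.successAt T ε (s : E) ∂(unifSphere E)

end P309
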