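import Vale.Agent.P309.H362.Chain

/-!
# P309: the upper bound with `d log₂ (1/ε) + (15 + A) d` bits
-/

open MeasureTheory ProbabilityTheory Metric Set Filter
open scoped ENNReal NNReal RealInnerProductSpace

namespace P309.LMS

variable {d N : ℕ}

/-- The logarithm of the refinement factor. -/
def ell (d : ℕ) : ℕ := 21 + Nat.clog 2 d

/-- The block size in sweep `r`. -/
def bsz (d A r : ℕ) : ℕ := min d ((A + r) * d / ell d)

/-- The number of blocks in sweep `r`. -/
def nbl (d A r : ℕ) : ℕ := d / bsz d A r + 1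

lemma ell_le (hd : 32 ≤ d) : ell d ≤ d := by
  unfold ell
  have h1 : Nat.clog 2 d ≤ d - 21 := by
    apply Nat.clog_le_of_le_pow
    obtain ⟨f, rfl⟩ : ∃ f, d = 32 + f := ⟨d - 32, by omega⟩
    have h2 : 32 + f - 21 = 11 + f := by omega
    rw [h2, pow_add]
    have h3 : f < 2 ^ f := Nat.lt_two_pow_self
    omega
  omega

lemma ell_pos : 0 < ell d := by unfold ell; omega

lemma le_two_pow_ell : 7 * (200000 * d) ≤ 2 ^ ell d := by
  unfold ell
  rw [pow_add]
  have h1 : d ≤ 2 ^ Nat.clog 2 d := Nat.le_pow_clog (by norm_num) d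
  omega

lemma bsz_pos (hd : 32 ≤ d) {A : ℕ} (hA : 1 ≤ A) (r : ℕ) : 1 ≤ bsz d A r := by
  unfold bsz
  apply le_min (by omega)
  rw [Nat.one_le_div_iff ell_pos]
  have h1 := ell_le hd
  have h2 : 1 * d ≤ (A + r) * d := Nat.mul_le_mul_right _ (by omega)
  omega

lemma bsz_le (A r : ℕ) : bsz d A r ≤ d := min_le_left _ _

lemma ell_mul_bsz (A r : ℕ) : ell d * bsz d A r ≤ (A + r) * d := by
  calc ell d * bsz d A r ≤ ell d * ((A + r) * d / ell d) :=
        Nat.mul_le_mul_left _ (min_le_right _ _)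
    _ ≤ _ := Nat.mul_div_le _ _

lemma nbl_mul_le (A r : ℕ) : nbl d A r * bsz d A r ≤ 2 * d := by
  unfold nbl
  have h1 := Nat.div_mul_le_self d (bsz d A r)
  have h2 := bsz_le (d := d) A r
  rw [add_mul, one_mul]
  omega

lemma le_nbl_mul (hd : 32 ≤ d) {A : ℕ} (hA : 1 ≤ A) (r : ℕ) : d ≤ nbl d A r * bsz d A r := by
  unfold nbl
  have h1 := bsz_pos hd hA r
  have h2 := Nat.div_add_mod d (bsz d A r)
  have h3 := Nat.mod_lt d (by omega : 0 < bsz d A r)
  rw [add_mul, one_mul, mul_comm]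
  omega

lemma nbl_le (hd : 32 ≤ d) {A : ℕ} (hA : 1 ≤ A) (r : ℕ) :
    (nbl d A r : ℝ) ≤ 2 + 2 * ell d * (1 / (A + r)) := by
  have hb := bsz_pos hd hA r
  have hb0 : (0 : ℝ) < bsz d A r := by exact_mod_cast hb
  have hl0 : (0 : ℝ) < ell d := by exact_mod_cast ell_pos (d := d)
  have hd0 : (0 : ℝ) < d := by exact_mod_cast (by omega : 0 < d)
  have hA0 : (0 : ℝ) < A := by exact_mod_cast hA
  have hr : (0 : ℝ) < A + r := by positivity
  unfold nbl
  push_cast
  have h1 : ((d / bsz d A r : ℕ) : ℝ) ≤ (d : ℝ) / bsz d A r := Nat.cast_div_le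
  have h2 : (d : ℝ) / bsz d A r ≤ 1 + 2 * ell d * (1 / (A + r)) := by
    rw [div_le_iff₀ hb0]
    rcases min_choice d ((A + r) * d / ell d) with h | h
    · have h3 : (bsz d A r : ℝ) = d := by
        unfold bsz; rw [h]
      rw [h3]
      have : 0 ≤ 2 * (ell d : ℝ) * (1 / (A + r)) := by positivity
      nlinarith only [this, hd0]
    · have h3 : bsz d A r = (A + r) * d / ell d := by unfold bsz; rw [h]
      have h4 := Nat.lt_div_mul_add (a := (A + r) * d) (ell_pos (d := d))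
      rw [← h3] at h4
      have h5 : (A + r) * d ≤ 2 * (bsz d A r * ell d) := by
        nlinarith only [h4, hb, ell_pos (d := d)]
      have h6 : ((A : ℝ) + r) * d ≤ 2 * (bsz d A r * ell d) := by exact_mod_cast h5
      have h7 : (2 * (ell d : ℝ) * (1 / (A + r))) * bsz d A r * (A + r) =
          2 * (bsz d A r * ell d) := by
        field_simp
      have h8 : (d : ℝ) ≤ (2 * (ell d : ℝ) * (1 / (A + r))) * bsz d A r := by
        apply le_of_mul_le_mul_right _ hr
        rw [h7]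
        linarith only [h6]
      linarith only [h8, hb0]
  linarith only [h1, h2]

lemma sum_inv_le {A : ℕ} (hA : 1 ≤ A) (m : ℕ) :
    ∑ r ∈ Finset.range m, (1 : ℝ) / (A + r) ≤ 2 * (Real.log (A + m) - Real.log A) := by
  have hA1 : (1 : ℝ) ≤ A := by exact_mod_cast hA
  induction m with
  | zero => simp
  | succ m ih =>
    rw [Finset.sum_range_succ]
    have hm0 : (0 : ℝ) ≤ m := Nat.cast_nonneg m
    have h0 : (0 : ℝ) < A + m := by linarith only [hA1, hm0]
    have h1 := Real.one_sub_inv_le_log_of_pos (x := (A + m + 1) / (A + m)) (by positivity)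
    rw [Real.log_div (by positivity) h0.ne', inv_div] at h1
    have h2 : (1 : ℝ) / (A + m) ≤ 2 * (1 - (A + m) / (A + m + 1)) := by
      have e : 2 * (1 - ((A : ℝ) + m) / (A + m + 1)) = 2 / (A + m + 1) := by
        field_simp
        ring
      rw [e, div_le_div_iff₀ h0 (by positivity)]
      linarith only [hA1, hm0]
    have h3 : Real.log (A + ((m + 1 : ℕ) : ℝ)) = Real.log (A + m + 1) := by
      congr 1
      push_cast
      ring
    rw [h3]
    linarith only [ih, h1, h2]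

lemma sum_nbl_le (hd : 32 ≤ d) {A : ℕ} (hA : 1 ≤ A) (m : ℕ) :
    ((∑ r ∈ Finset.range m, nbl d A r : ℕ) : ℝ) ≤ 2 * m + 4 * ell d * Real.log (1 + m / A) := by
  have hA0 : (0 : ℝ) < A := by exact_mod_cast hA
  have h1 := sum_inv_le hA m
  have h2 : Real.log (A + m) - Real.log A = Real.log (1 + m / A) := by
    rw [← Real.log_div (by positivity) hA0.ne']
    congr 1
    field_simp
  rw [h2] at h1
  push_cast
  calc ∑ r ∈ Finset.range m, (nbl d A r : ℝ)
      ≤ ∑ r ∈ Finset.range m, (2 + 2 * ell d * ((1 : ℝ) / (A + r))) :=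
        Finset.sum_le_sum fun r _ => nbl_le hd hA r
    _ = 2 * m + 2 * ell d * ∑ r ∈ Finset.range m, (1 : ℝ) / (A + r) := by
        rw [Finset.sum_add_distrib, Finset.sum_const, Finset.card_range, nsmul_eq_mul,
          ← Finset.mul_sum]
        ring
    _ ≤ 2 * m + 2 * ell d * (2 * Real.log (1 + m / A)) := by gcongr
    _ = _ := by ring

/-- Storing the grids. -/
lemma coded_all (hd : 32 ≤ d) {ε : ℝ} (hε0 : 0 < ε) (hε1 : ε ≤ 1 / 2) {M m A : ℕ}
    (hM : d * Real.logb 2 (1 / ε) + (15 + A) * d ≤ M) (hm : (8 : ℝ) ^ m ≤ 768 / ε ^ 2) (r : ℕ)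
    (hr : r < m) (B : Finset (Fin d)) (hB : B.card ≤ bsz d A r) :
    Coded (2 ^ M) (Grid (sp (2 ^ r * (ε / (136 * √d))) (2 ^ ell d) B) 5) := by
  have hd0 : (0 : ℝ) < d := by exact_mod_cast (by omega : 0 < d)
  have hsd : √(d : ℝ) ^ 2 = d := Real.sq_sqrt hd0.le
  have hsd0 : 0 < √(d : ℝ) := Real.sqrt_pos.2 hd0
  set x : ℝ := 2 ^ r * ε with hx
  have hx0 : 0 < x := by positivity
  have hx4 : x ≤ 4 := by
    have h1 : (8 : ℝ) ^ r * 8 ≤ 768 / ε ^ 2 := by
      refine le_trans ?_ hm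
      rw [← pow_succ]
      exact pow_le_pow_right₀ (by norm_num) (by omega)
    have h2 : x ^ 3 ≤ 4 ^ 3 := by
      have e1 : x ^ 3 = 8 ^ r * ε ^ 3 := by
        rw [hx, mul_pow, ← pow_mul, mul_comm r 3, pow_mul]; norm_num
      rw [e1]
      rw [le_div_iff₀ (by positivity)] at h1
      nlinarith only [h1, hε0, hε1]
    exact le_of_pow_le_pow_left₀ (by norm_num) (by norm_num) h2
  set μ : ℕ := ⌈1000 / x⌉₊ with hμ
  have hμ1 : 1000 / x ≤ μ := Nat.le_ceil _
  have hμ2 : (μ : ℝ) ≤ 1004 / x := by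
    have h1 : (μ : ℝ) < 1000 / x + 1 := Nat.ceil_lt_add_one (by positivity)
    have h2 : 1 ≤ 4 / x := by rw [le_div_iff₀ hx0]; linarith only [hx4]
    have h3 : 1004 / x = 1000 / x + 4 / x := by ring
    linarith only [h1, h2, h3]
  have hμ0 : 1 ≤ μ := by
    have : (0 : ℝ) < μ := lt_of_lt_of_le (by positivity) hμ1
    exact_mod_cast this
  have hμx : 1000 ≤ μ * x := by
    rw [div_le_iff₀ hx0] at hμ1; exact hμ1
  have hh : (2 ^ r * (ε / (136 * √(d : ℝ)))) ^ 2 = x ^ 2 / (18496 * d) := by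
    have : 2 ^ r * (ε / (136 * √(d : ℝ))) = x / (136 * √(d : ℝ)) := by rw [hx]; ring
    rw [this, div_pow, mul_pow (136 : ℝ), hsd]
    norm_num
  refine coded_grid (by positivity) Nat.one_le_two_pow B hμ0 ?_ ?_
  · rw [hh]
    have e1 : 2 * (d : ℝ) * (x ^ 2 / (18496 * d)) = 2 * x ^ 2 / 18496 := by
      field_simp
    have e2 : (d : ℝ) * μ ^ 2 * (x ^ 2 / (18496 * d)) = (μ * x) ^ 2 / 18496 := by
      field_simp
    rw [e1, e2]
    nlinarith only [hμx, hx4, hx0]
  · have h1 : (Real.exp 1 * (6 * μ)) ≤ 2 ^ 15 / x := by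
      have h2 := Real.exp_one_lt_d9
      calc Real.exp 1 * (6 * μ) ≤ 3 * (6 * (1004 / x)) := by
            gcongr
            linarith only [h2]
        _ = 18072 / x := by ring
        _ ≤ _ := by gcongr; norm_num
    have h3 : (((2 ^ ell d : ℕ) : ℝ)) ^ B.card ≤ 2 ^ ((A + r) * d) := by
      push_cast
      rw [← pow_mul]
      apply pow_le_pow_right₀ (by norm_num)
      exact (Nat.mul_le_mul_left _ hB).trans (ell_mul_bsz A r)
    calc (Real.exp 1 * (6 * μ)) ^ d * ((2 ^ ell d : ℕ) : ℝ) ^ B.card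
        ≤ (2 ^ 15 / x) ^ d * 2 ^ ((A + r) * d) := by gcongr
      _ = (2 ^ (15 + A) * (1 / ε)) ^ d := by
          rw [pow_mul, ← mul_pow, hx]
          congr 1
          rw [pow_add (2 : ℝ) A r, pow_add (2 : ℝ) 15 A]
          field_simp
      _ = (2 : ℝ) ^ (d * Real.logb 2 (1 / ε) + (15 + A) * d) := by
          rw [Real.rpow_add (by norm_num), mul_comm (d : ℝ) (Real.logb 2 (1 / ε)),
            Real.rpow_mul (by norm_num), Real.rpow_logb (by norm_num) (by norm_num) (by positivity),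
            Real.rpow_mul (by norm_num), Real.rpow_natCast, Real.rpow_natCast, mul_pow, mul_comm]
          congr 2
          rw [← Real.rpow_natCast]
          push_cast
          rfl
      _ ≤ (2 : ℝ) ^ (M : ℝ) := Real.rpow_le_rpow_of_exponent_le (by norm_num) hM
      _ = ((2 ^ M : ℕ) : ℝ) := by rw [Real.rpow_natCast]; push_cast; rfl

/-- The upper bound with `d log₂ (1/ε) + (15 + A) d` bits, in terms of sweeps. -/
theorem upper_sweeps (hd : 32 ≤ d) {ε : ℝ} (hε0 : 0 < ε) (hε1 : ε ≤ 1 / 2) {M m A : ℕ} (hA : 1 ≤ A)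
    (hM : d * Real.logb 2 (1 / ε) + (15 + A) * d ≤ M) (hm0 : 96 / ε ^ 2 ≤ 8 ^ m)
    (hm : (8 : ℝ) ^ m ≤ 768 / ε ^ 2) :
    ∃ L : Learner (Vec d) (2 ^ M), L.FixedOutput ∧ ∀ s : Sph d, 2 / 3 ≤
      ∫⁻ q, L.win ε ((∑ r ∈ Finset.range m, nbl d A r) * (800000 * d + 1)) 0 q (s : Vec d)
        ∂L.init := by
  have hd0 : (0 : ℝ) < d := by exact_mod_cast (by omega : 0 < d)
  have hsd : √(d : ℝ) ^ 2 = d := Real.sq_sqrt hd0.le
  have hsd0 : 0 < √(d : ℝ) := Real.sqrt_pos.2 hd0
  have hm1 : 1 ≤ m := by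
    by_contra h
    have : m = 0 := by omega
    rw [this, pow_zero, div_le_one (by positivity)] at hm0
    nlinarith only [hm0, hε0, hε1]
  obtain ⟨u, hu⟩ : ∃ u : Vec d, ‖u‖ = 1 := ⟨EuclideanSpace.single ⟨0, by omega⟩ 1, by simp⟩
  have h := chain (N := 2 ^ M) (by omega : 1 ≤ d) ⟨u, by simpa using hu⟩ hε0 hε1
    (h0 := ε / (136 * √d)) (by positivity) (le_two_pow_ell (d := d)) m hm0 (bsz d A) (nbl d A)
    (bsz_pos hd hA) (le_nbl_mul hd hA) (nbl_mul_le A)
    (fun r hr B hB => coded_all hd hε0 hε1 hM hm r hr B hB) m le_rfl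
  have hC : Coded (2 ^ M) (Grid (sp (2 ^ m * (ε / (136 * √d))) (2 ^ ell d)
      (∅ : Finset (Fin d))) 5) := by
    refine (coded_all hd hε0 hε1 hM hm (m - 1) (by omega) ∅ (by simp)).mono ?_
    intro z hz
    refine ⟨hz.1, fun i => ?_⟩
    obtain ⟨q, hq⟩ := hz.2 i
    refine ⟨2 * q, ?_⟩
    rw [hq]
    have : (2 : ℝ) ^ m = 2 ^ (m - 1) * 2 := by
      rw [← pow_succ]; congr 1; omega
    simp only [sp, Finset.notMem_empty, if_false]
    rw [this]
    push_cast
    ring
  refine h.succeeds (fun z hz => hz.1) hC ?_ ?_ ?_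
  · refine ⟨by simp, fun i => ⟨0, by simp⟩⟩
  · intro _
    simp
  · have h1 : (0 : ℝ) ≤ (1 / 2) ^ m := by positivity
    have h2 : (ε / (136 * √(d : ℝ))) ^ 2 = ε ^ 2 / (18496 * d) := by
      rw [div_pow, mul_pow, hsd]; norm_num
    rw [h2]
    have h3 : 4 * 8 ^ m * (d : ℝ) * (ε ^ 2 / (18496 * d)) = 4 * (8 ^ m * ε ^ 2) / 18496 := by
      field_simp
    rw [h3]
    have h4 : (8 : ℝ) ^ m * ε ^ 2 ≤ 768 := by
      rw [le_div_iff₀ (by positivity)] at hm; exact hm
    have h5 : 0 ≤ (8 : ℝ) ^ m * ε ^ 2 := by positivity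
    nlinarith only [h1, h4, h5]

lemma numbers (hd : 32 ≤ d) {ε : ℝ} (hε0 : 0 < ε) (hε1 : ε ≤ 1 / 2) :
    (ell d : ℝ) ≤ 8 * Real.log d ∧ ∃ m : ℕ, 96 / ε ^ 2 ≤ 8 ^ m ∧ (8 : ℝ) ^ m ≤ 768 / ε ^ 2 ∧
      (m : ℝ) ≤ 6 * Real.log (1 / ε) := by
  have hd0 : (0 : ℝ) < d := by exact_mod_cast (by omega : 0 < d)
  have hl2 := Real.log_two_gt_d9
  have hl2' := Real.log_two_lt_d9
  constructor
  · have h1 : (32 : ℝ) ≤ d := by exact_mod_cast hd
    have h2 : 5 * Real.log 2 ≤ Real.log d := by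
      have h3 : Real.log 32 ≤ Real.log d := Real.log_le_log (by norm_num) h1
      have h4 : Real.log 32 = 5 * Real.log 2 := by
        rw [show (32 : ℝ) = 2 ^ 5 by norm_num, Real.log_pow]; norm_num
      linarith only [h3, h4]
    have h3 : (Nat.clog 2 d : ℝ) * Real.log 2 ≤ Real.log d + Real.log 2 := by
      have h4 : 2 ^ (Nat.clog 2 d - 1) < d := Nat.pow_pred_clog_lt_self (by norm_num) (by omega)
      have h5 : 2 ^ Nat.clog 2 d ≤ 2 * d := by
        have h6 : 0 < Nat.clog 2 d := Nat.clog_pos (by norm_num) (by omega)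
        have h7 : 2 ^ Nat.clog 2 d = 2 * 2 ^ (Nat.clog 2 d - 1) := by
          rw [← pow_succ']; congr 1; omega
        omega
      have h6 : ((2 : ℝ) ^ Nat.clog 2 d) ≤ 2 * d := by exact_mod_cast h5
      have h7 := Real.log_le_log (by positivity) h6
      rw [Real.log_pow, Real.log_mul (by norm_num) hd0.ne'] at h7
      linarith only [h7]
    unfold ell
    push_cast
    nlinarith only [h2, h3, hl2, hl2']
  · set Λ := Real.log (1 / ε) with hΛ
    have hΛ1 : Real.log 2 ≤ Λ := by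
      apply Real.log_le_log (by norm_num)
      rw [le_div_iff₀ hε0]; linarith only [hε1]
    have hX : 0 < 96 / ε ^ 2 := by positivity
    have hX1 : Real.log (96 / ε ^ 2) = Real.log 96 + 2 * Λ := by
      have e : 96 / ε ^ 2 = 96 * (1 / ε) ^ 2 := by field_simp
      rw [e, Real.log_mul (by norm_num) (by positivity), Real.log_pow, hΛ]
      norm_num
    have h96 : Real.log 96 ≤ 7 * Real.log 2 := by
      have h3 : Real.log 96 ≤ Real.log 128 := Real.log_le_log (by norm_num) (by norm_num)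
      have h4 : Real.log 128 = 7 * Real.log 2 := by
        rw [show (128 : ℝ) = 2 ^ 7 by norm_num, Real.log_pow]; norm_num
      linarith only [h3, h4]
    have h960 : 0 ≤ Real.log 96 := Real.log_nonneg (by norm_num)
    have h8 : Real.log 8 = 3 * Real.log 2 := by
      rw [show (8 : ℝ) = 2 ^ 3 by norm_num, Real.log_pow]; norm_num
    have hlb : 0 ≤ Real.logb 8 (96 / ε ^ 2) := by
      unfold Real.logb
      rw [hX1, h8]
      apply div_nonneg (by linarith only [h960, hΛ1, hl2]) (by linarith only [hl2])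
    set m : ℕ := ⌈Real.logb 8 (96 / ε ^ 2)⌉₊ with hm
    have hm1 : Real.logb 8 (96 / ε ^ 2) ≤ m := Nat.le_ceil _
    have hm2 : (m : ℝ) < Real.logb 8 (96 / ε ^ 2) + 1 := Nat.ceil_lt_add_one hlb
    refine ⟨m, ?_, ?_, ?_⟩
    · rw [← Real.rpow_natCast 8 m]
      exact (Real.logb_le_iff_le_rpow (by norm_num) hX).1 hm1
    · rw [← Real.rpow_natCast 8 m]
      calc (8 : ℝ) ^ (m : ℝ) ≤ 8 ^ (Real.logb 8 (96 / ε ^ 2) + 1) :=
            Real.rpow_le_rpow_of_exponent_le (by norm_num) hm2.le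
        _ = 768 / ε ^ 2 := by
            rw [Real.rpow_add (by norm_num), Real.rpow_logb (by norm_num) (by norm_num) hX,
              Real.rpow_one]
            ring
    · have h5 : Real.logb 8 (96 / ε ^ 2) * (3 * Real.log 2) = Real.log 96 + 2 * Λ := by
        unfold Real.logb
        rw [hX1, h8]
        field_simp
      have h6 : (m : ℝ) * (3 * Real.log 2) ≤ Real.log 96 + 2 * Λ + 3 * Real.log 2 := by
        have : (m : ℝ) * (3 * Real.log 2) ≤ (Real.logb 8 (96 / ε ^ 2) + 1) * (3 * Real.log 2) := by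
          gcongr
        linarith only [this, h5]
      have h7 : (m : ℝ) * (3 * Real.log 2) ≤ (6 * Λ) * (3 * Real.log 2) := by
        nlinarith only [h6, h96, hΛ1, hl2, hl2']
      exact le_of_mul_le_mul_right h7 (by positivity)

lemma log_one_add_mul_le {x : ℝ} (hx : 0 ≤ x) : Real.log (1 + 6 * x) ≤ 6 * Real.log (1 + x) := by
  have h1 : Real.log ((1 + x) ^ 6) = 6 * Real.log (1 + x) := by
    rw [Real.log_pow]; norm_num
  rw [← h1]
  apply Real.log_le_log (by positivity)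
  have := one_add_mul_le_pow (a := x) (by linarith only [hx]) 6
  push_cast at this
  exact this

/-- **The upper bound** with `d log₂ (1/ε) + (15 + A) d` bits. -/
theorem upper (hd : 32 ≤ d) {ε : ℝ} (hε0 : 0 < ε) (hε1 : ε ≤ 1 / 2) {M A : ℕ} (hA : 1 ≤ A)
    (hM : d * Real.logb 2 (1 / ε) + (15 + A) * d ≤ M) :
    ∃ T : ℕ, (T : ℝ) ≤ 10 ^ 9 * d * (Real.log (1 / ε) +
        Real.log d * Real.log (1 + Real.log (1 / ε) / A)) ∧
      ∃ L : Learner (Vec d) (2 ^ M), L.FixedOutput ∧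
        ∀ s : Sph d, 2 / 3 ≤ ∫⁻ q, L.win ε T 0 q (s : Vec d) ∂L.init := by
  obtain ⟨hℓ, m, hm0, hm1, hm2⟩ := numbers hd hε0 hε1
  refine ⟨_, ?_, upper_sweeps hd hε0 hε1 hA hM hm0 hm1⟩
  have hd1 : (1 : ℝ) ≤ d := by exact_mod_cast (by omega : 1 ≤ d)
  have hA0 : (0 : ℝ) < A := by exact_mod_cast hA
  set Λ := Real.log (1 / ε) with hΛ
  have hΛ0 : 0 ≤ Λ := by
    apply Real.log_nonneg
    rw [le_div_iff₀ hε0]; linarith only [hε1]
  have hlogd : 0 ≤ Real.log d := Real.log_nonneg hd1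
  have h1 := sum_nbl_le hd hA m
  have h2 : Real.log (1 + m / A) ≤ 6 * Real.log (1 + Λ / A) := by
    refine le_trans ?_ (log_one_add_mul_le (by positivity))
    apply Real.log_le_log (by positivity)
    have : (m : ℝ) / A ≤ 6 * Λ / A := by gcongr
    have e : 6 * (Λ / A) = 6 * Λ / A := by ring
    linarith only [this, e]
  have h3 : 0 ≤ Real.log (1 + Λ / A) := by
    apply Real.log_nonneg
    have : 0 ≤ Λ / A := by positivity
    linarith only [this]
  have h4 : 0 ≤ Real.log (1 + m / A) := by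
    apply Real.log_nonneg
    have : (0 : ℝ) ≤ m / A := by positivity
    linarith only [this]
  have h5 : 4 * (ell d : ℝ) * Real.log (1 + m / A) ≤
      4 * (8 * Real.log d) * (6 * Real.log (1 + Λ / A)) := by gcongr
  have h6 : ((∑ r ∈ Finset.range m, nbl d A r : ℕ) : ℝ) ≤
      200 * (Λ + Real.log d * Real.log (1 + Λ / A)) := by
    have h7 : 0 ≤ Real.log d * Real.log (1 + Λ / A) := by positivity
    linarith only [h1, h5, hm2, h7, hΛ0]
  have h8 : ((800000 * d + 1 : ℕ) : ℝ) ≤ 1000000 * d := by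
    push_cast
    linarith only [hd1]
  rw [Nat.cast_mul]
  have h9 : 0 ≤ Λ + Real.log d * Real.log (1 + Λ / A) := by positivity
  calc ((∑ r ∈ Finset.range m, nbl d A r : ℕ) : ℝ) * ((800000 * d + 1 : ℕ) : ℝ)
      ≤ (200 * (Λ + Real.log d * Real.log (1 + Λ / A))) * (1000000 * d) := by gcongr
    _ ≤ _ := by
        have h10 : 0 ≤ (Λ + Real.log d * Real.log (1 + Λ / A)) * d := by positivity
        linarith only [h10]

end P309.LMS
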