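import Vale.Agent.P309.H362.Defs
import Vale.Agent.P309.H362.Final
import Vale.Agent.P309.H362.Converse

/-!
# P309: the least horizon above the memory threshold
-/

open MeasureTheory ProbabilityTheory Metric Set Filter
open scoped ENNReal NNReal RealInnerProductSpace

namespace P309.LMS

/-- From a learner to the least horizon. -/
lemma leastHorizon_of_learner {d M T : ℕ} {ε X Y : ℝ} (hT : (T : ℝ) ≤ X)
    (hL : ∃ L : Learner (Vec d) (2 ^ M), L.FixedOutput ∧ L.Succeeds T ε)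
    (hlow : ∀ (T : ℕ) (L : Learner (EuclideanSpace ℝ (Fin d)) (2 ^ M)), L.Succeeds T ε →
      Y ≤ T) :
    ∃ T : ℕ, leastHorizon d M ε = (T : ℕ∞) ∧ Y ≤ T ∧ (T : ℝ) ≤ X := by
  obtain ⟨L, hL, hS⟩ := hL
  have h1 : leastHorizon d M ε ≤ (T : ℕ∞) := iInf₂_le T ⟨L, hL, hS⟩
  have h2 : leastHorizon d M ε ≠ ⊤ := ne_top_of_le_ne_top (ENat.natCast_ne_top T) h1
  obtain ⟨T', hT'⟩ := ENat.ne_top_iff_exists.mp h2
  obtain ⟨L', -, hS'⟩ := leastHorizon_spec hT'.symm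
  refine ⟨T', hT'.symm, hlow T' L' hS', ?_⟩
  rw [← hT'] at h1
  have h3 : T' ≤ T := by exact_mod_cast h1
  have h4 : (T' : ℝ) ≤ T := by exact_mod_cast h3
  exact h4.trans hT

/-- The upper bound with a real number of extra bits per coordinate. -/
theorem upper_real {d : ℕ} (hd : 32 ≤ d) {ε : ℝ} (hε0 : 0 < ε) (hε1 : ε ≤ 1 / 2) {M : ℕ} {A : ℝ}
    (hA : 1 ≤ A) (hM : d * Real.logb 2 (1 / ε) + (15 + A) * d ≤ M) :
    ∃ T : ℕ, (T : ℝ) ≤ 2 * 10 ^ 9 * d * (Real.log (1 / ε) +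
        Real.log d * Real.log (1 + Real.log (1 / ε) / A)) ∧
      ∃ L : Learner (Vec d) (2 ^ M), L.FixedOutput ∧
        ∀ s : Sph d, 2 / 3 ≤ ∫⁻ q, L.win ε T 0 q (s : Vec d) ∂L.init := by
  have hA0 : 0 ≤ A := by linarith only [hA]
  have hfl : 1 ≤ ⌊A⌋₊ := by
    rw [Nat.one_le_floor_iff]
    exact hA
  have hfl1 : (⌊A⌋₊ : ℝ) ≤ A := Nat.floor_le hA0
  have hfl2 : A ≤ 2 * ⌊A⌋₊ := by
    have h1 : A < ⌊A⌋₊ + 1 := Nat.lt_floor_add_one A
    have h2 : (1 : ℝ) ≤ ⌊A⌋₊ := by exact_mod_cast hfl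
    linarith only [h1, h2]
  have hd0 : (0 : ℝ) < d := by exact_mod_cast (by omega : 0 < d)
  have hd1 : (1 : ℝ) ≤ d := by exact_mod_cast (by omega : 1 ≤ d)
  obtain ⟨T, hT, hL⟩ := upper hd hε0 hε1 hfl (M := M) (by
    have : (15 + (⌊A⌋₊ : ℝ)) * d ≤ (15 + A) * d := by gcongr
    linarith only [this, hM])
  refine ⟨T, hT.trans ?_, hL⟩
  set Λ := Real.log (1 / ε) with hΛ
  have hΛ0 : 0 ≤ Λ := by
    apply Real.log_nonneg
    rw [le_div_iff₀ hε0]; linarith only [hε1]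
  have hF0 : (0 : ℝ) < ⌊A⌋₊ := by exact_mod_cast hfl
  have hA00 : 0 < A := by linarith only [hA]
  have hlogd : 0 ≤ Real.log d := Real.log_nonneg hd1
  have h1 : Real.log (1 + Λ / ⌊A⌋₊) ≤ 2 * Real.log (1 + Λ / A) := by
    have h2 : Λ / ⌊A⌋₊ ≤ 2 * (Λ / A) := by
      have e : 2 * (Λ / A) = 2 * Λ / A := by ring
      rw [e, div_le_div_iff₀ hF0 hA00]
      nlinarith only [hfl2, hΛ0]
    have h3 : 0 ≤ Λ / A := by positivity
    have h4 : 2 * Real.log (1 + Λ / A) = Real.log ((1 + Λ / A) ^ 2) := by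
      rw [Real.log_pow]; norm_num
    rw [h4]
    apply Real.log_le_log (by positivity)
    nlinarith only [h2, h3]
  have h5 : Real.log d * Real.log (1 + Λ / ⌊A⌋₊) ≤ Real.log d * (2 * Real.log (1 + Λ / A)) := by
    gcongr
  have h6 : 10 ^ 9 * (d : ℝ) * (Λ + Real.log d * Real.log (1 + Λ / ⌊A⌋₊)) ≤
      10 ^ 9 * (d : ℝ) * (2 * (Λ + Real.log d * Real.log (1 + Λ / A))) := by
    apply mul_le_mul_of_nonneg_left _ (by positivity)
    linarith only [h5, hΛ0]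
  linarith only [h6]

/-- For `log (1/ε) ≥ log d log log d` the logarithmic term is negligible. -/
lemma log_term_le {D Λ : ℝ} (hD : 2 ≤ D) (hΛ : D * Real.log D ≤ Λ) :
    D * Real.log (1 + Λ / 1) ≤ 3 * Λ := by
  have hD0 : 0 < D := by linarith only [hD]
  have hlD : 0 ≤ Real.log D := Real.log_nonneg (by linarith only [hD])
  have hΛ0 : 0 ≤ Λ := le_trans (by positivity) hΛ
  rw [div_one]
  have h1 : Real.log (1 + Λ) ≤ Real.log (D ^ 2 * (1 + Λ / D)) := by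
    apply Real.log_le_log (by positivity)
    have e : D ^ 2 * (1 + Λ / D) = D ^ 2 + D * Λ := by field_simp
    rw [e]
    nlinarith only [hD, hΛ0]
  have h2 : Real.log (D ^ 2 * (1 + Λ / D)) = 2 * Real.log D + Real.log (1 + Λ / D) := by
    rw [Real.log_mul (by positivity) (by positivity), Real.log_pow]
    norm_num
  have h3 : Real.log (1 + Λ / D) ≤ Λ / D := by
    have := Real.log_le_sub_one_of_pos (x := 1 + Λ / D) (by positivity)
    linarith only [this]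
  have h4 : D * Real.log (1 + Λ) ≤ D * (2 * Real.log D + Λ / D) := by
    apply mul_le_mul_of_nonneg_left _ hD0.le
    linarith only [h1, h2, h3]
  have h5 : D * (2 * Real.log D + Λ / D) = 2 * (D * Real.log D) + Λ := by field_simp
  linarith only [h4, h5, hΛ]

/-- Below the memory threshold the success probability is exponentially small for every horizon. -/
theorem few_states {d : ℕ} (hd : 2 ≤ d) {ε : ℝ} (hε : 0 < ε) {M : ℕ}
    (hM : (M : ℝ) ≤ (d - 1) * Real.logb 2 (1 / ε) - 4 * d) (T : ℕ)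
    (L : Learner (Vec d) (2 ^ M)) (hL : L.FixedOutput) :
    ∫⁻ s : Sph d, ∫⁻ q, L.win ε T 0 q (s : Vec d) ∂L.init ∂(unifSphere (Vec d)) ≤
      ENNReal.ofReal (Real.exp (-((d : ℝ) / 16))) := by
  have h1 : ∫⁻ s : Sph d, ∫⁻ q, L.win ε T 0 q (s : Vec d) ∂L.init ∂(unifSphere (Vec d)) ≤
      ENNReal.ofReal (((2 ^ M : ℕ) : ℝ) * (6 ^ d * ε ^ (d - 1))) := by
    apply L.success_le
    intro q
    calc ∫⁻ s, L.win ε T 0 q s ∂(sphereProb (Vec d))
        ≤ ∫⁻ s, ∑ q', L.good ε 0 q' s ∂(sphereProb (Vec d)) :=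
          lintegral_mono fun s => L.win_le_sum_fixed hL ε T 0 q s
      _ = ∑ q', ∫⁻ s, L.good ε 0 q' s ∂(sphereProb (Vec d)) := by
          rw [lintegral_finsetSum]
          intro q' _
          exact L.measurable_good ε 0 q'
      _ ≤ ∑ _q' : Fin (2 ^ M), ENNReal.ofReal (6 ^ d * ε ^ (d - 1)) :=
          Finset.sum_le_sum fun q' _ => lintegral_good_le (by omega) L ε hε 0 q'
      _ = ENNReal.ofReal (((2 ^ M : ℕ) : ℝ) * (6 ^ d * ε ^ (d - 1))) := by
          rw [Finset.sum_const, Finset.card_univ, Fintype.card_fin, nsmul_eq_mul,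
            ENNReal.ofReal_mul (p := ((2 ^ M : ℕ) : ℝ)) (by positivity), ENNReal.ofReal_natCast]
  refine h1.trans (ENNReal.ofReal_le_ofReal ?_)
  have h2 : ((2 ^ M : ℕ) : ℝ) = (2 : ℝ) ^ (M : ℝ) := by
    rw [Real.rpow_natCast]; push_cast; rfl
  have h3 : (2 : ℝ) ^ (M : ℝ) ≤ (2 : ℝ) ^ (((d : ℝ) - 1) * Real.logb 2 (1 / ε) - 4 * d) :=
    Real.rpow_le_rpow_of_exponent_le (by norm_num) hM
  have h4 : (2 : ℝ) ^ (((d : ℝ) - 1) * Real.logb 2 (1 / ε) - 4 * d) =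
      (1 / ε) ^ (d - 1) * (16 ^ d)⁻¹ := by
    rw [Real.rpow_sub (by norm_num), mul_comm, Real.rpow_mul (by norm_num),
      Real.rpow_logb (by norm_num) (by norm_num) (by positivity), div_eq_mul_inv]
    congr 1
    · have : ((d : ℝ) - 1) = ((d - 1 : ℕ) : ℝ) := by
        rw [Nat.cast_sub (by omega)]; simp
      rw [this, Real.rpow_natCast]
    · rw [Real.rpow_mul (by norm_num), Real.rpow_natCast]
      norm_num
  have h5 : ((2 ^ M : ℕ) : ℝ) * (6 ^ d * ε ^ (d - 1)) ≤ (6 / 16) ^ d := by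
    calc ((2 ^ M : ℕ) : ℝ) * (6 ^ d * ε ^ (d - 1))
        ≤ ((1 / ε) ^ (d - 1) * (16 ^ d)⁻¹) * (6 ^ d * ε ^ (d - 1)) := by
          rw [h2]
          have := h3.trans h4.le
          (clear * - this hε; gcongr)
      _ = ((1 / ε) * ε) ^ (d - 1) * (6 / 16) ^ d := by
          rw [mul_pow, div_pow 6 16]
          field_simp
      _ = (6 / 16) ^ d := by
          rw [one_div_mul_cancel hε.ne', one_pow, one_mul]
  refine h5.trans ?_
  have h6 : (6 / 16 : ℝ) ≤ Real.exp (-(1 / 16)) := by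
    have := Real.add_one_le_exp (-(1 / 16 : ℝ))
    norm_num at this ⊢
    linarith only [this]
  calc (6 / 16 : ℝ) ^ d ≤ Real.exp (-(1 / 16)) ^ d := by gcongr
    _ = Real.exp (-((d : ℝ) / 16)) := by
        rw [← Real.exp_nat_mul]; congr 1; ring

/-- The least horizon at the memory threshold. -/
theorem main :
    ∃ C : ℝ, 0 < C ∧ ∀ C₀ : ℝ, 0 < C₀ →
    ∃ c : ℝ, 0 < c ∧ ∃ d₀ : ℕ, ∃ ε₀ : ℝ, 0 < ε₀ ∧ ε₀ < 1 ∧
      ∀ d : ℕ, d₀ ≤ d → ∀ ε : ℝ, 0 < ε → ε ≤ ε₀ → ∀ M : ℕ, (M : ℝ) ≤ C₀ * (d : ℝ) ^ 2 →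
        (∀ (T : ℕ) (L : Learner (EuclideanSpace ℝ (Fin d)) (2 ^ M)), L.Succeeds T ε →
          c * d * Real.log (1 / ε) ≤ T) ∧
        (∀ (T : ℕ) (L : Learner (EuclideanSpace ℝ (Fin d)) (2 ^ M)),
          (T : ℝ) < c * d * Real.log (1 / ε) →
          L.successProb T ε ≤ ENNReal.ofReal (Real.exp (-((d : ℝ) / 16)))) ∧
        ((M : ℝ) ≤ (d - 1) * Real.logb 2 (1 / ε) - 4 * d → leastHorizon d M ε = ⊤ ∧
          ∀ (T : ℕ) (L : Learner (EuclideanSpace ℝ (Fin d)) (2 ^ M)), L.FixedOutput →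
            L.successProb T ε ≤ ENNReal.ofReal (Real.exp (-((d : ℝ) / 16)))) ∧
        ((d - 1) * Real.logb 2 (1 / ε) + (2 * C₀ + 16) * d ≤ M →
          Real.log d * Real.log (Real.log d) ≤ Real.log (1 / ε) →
          ∃ T : ℕ, leastHorizon d M ε = (T : ℕ∞) ∧
            c * d * Real.log (1 / ε) ≤ T ∧ (T : ℝ) ≤ C * d * Real.log (1 / ε)) ∧
        (∀ A : ℝ, 1 ≤ A → d * Real.logb 2 (1 / ε) + (15 + A) * d ≤ M →
          ∃ T T' : ℕ, leastHorizon d M ε = (T : ℕ∞) ∧ c * d * Real.log (1 / ε) ≤ T ∧ T ≤ T' ∧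
            (T' : ℝ) ≤ C * d * (Real.log (1 / ε) +
              Real.log d * Real.log (1 + Real.log (1 / ε) / A)) ∧
            ∃ L : Learner (EuclideanSpace ℝ (Fin d)) (2 ^ M), L.FixedOutput ∧
              ∀ s : EuclideanSpace ℝ (Fin d), ‖s‖ = 1 → 2 / 3 ≤ L.successAt T' ε s) ∧
        (d * Real.logb 2 (d / ε) + 11 * d ≤ M → ∃ T : ℕ, leastHorizon d M ε = (T : ℕ∞) ∧
          c * d * Real.log (1 / ε) ≤ T ∧ (T : ℝ) ≤ 20 * d * Real.log (1 / ε)) := by
  refine ⟨10 ^ 10, by norm_num, ?_⟩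
  intro C₀ hC₀
  obtain ⟨c, hc, d₀, hd₀, ε₀, h0, h1, h⟩ := converse C₀ hC₀
  have h12 : (0 : ℝ) < min ε₀ (1 / 2) := lt_min h0 (by norm_num)
  refine ⟨c, hc, max d₀ 32, min ε₀ (1 / 2), h12, lt_of_le_of_lt (min_le_left _ _) h1, ?_⟩
  intro d hd ε hε hεe M hM
  have hdd : d₀ ≤ d := le_trans (le_max_left _ _) hd
  have hd32 : 32 ≤ d := le_trans (le_max_right _ _) hd
  have hd32' : (32 : ℝ) ≤ d := by exact_mod_cast hd32
  have hd0 : (0 : ℝ) < d := by linarith only [hd32']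
  have hε0 : ε ≤ ε₀ := hεe.trans (min_le_left _ _)
  have hε2 : ε ≤ 1 / 2 := hεe.trans (min_le_right _ _)
  have hN : (((2 ^ M : ℕ) : ℕ) : ℝ) ≤ (2 : ℝ) ^ (C₀ * (d : ℝ) ^ 2) := by
    push_cast
    rw [← Real.rpow_natCast 2 M]
    exact Real.rpow_le_rpow_of_exponent_le (by norm_num) hM
  have hconv : ∀ (T : ℕ) (L : Learner (EuclideanSpace ℝ (Fin d)) (2 ^ M)),
      (T : ℝ) < c * d * Real.log (1 / ε) →
      L.successProb T ε ≤ ENNReal.ofReal (Real.exp (-((d : ℝ) / 16))) :=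
    fun T L hT => h d hdd ε hε hε0 (2 ^ M) hN L T hT
  have hlow : ∀ (T : ℕ) (L : Learner (EuclideanSpace ℝ (Fin d)) (2 ^ M)), L.Succeeds T ε →
      c * d * Real.log (1 / ε) ≤ T := by
    intro T L hL
    by_contra hcon
    push Not at hcon
    have h2 := hconv T L hcon
    have h3 : (2 / 3 : ℝ≥0∞) ≤ ENNReal.ofReal (Real.exp (-((d : ℝ) / 16))) :=
      le_trans hL h2
    have h4 : Real.exp (-((d : ℝ) / 16)) ≤ 1 / 2 := by
      have h5 : Real.exp (-((d : ℝ) / 16)) ≤ Real.exp (-1) := by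
        apply Real.exp_le_exp.2
        linarith only [hd32']
      have h6 := Real.exp_neg_one_lt_d9
      linarith only [h5, h6]
    have h5 : (2 / 3 : ℝ≥0∞) = ENNReal.ofReal (2 / 3) := by
      rw [ENNReal.ofReal_div_of_pos (by norm_num)]
      norm_num
    rw [h5] at h3
    have h6 := (ENNReal.ofReal_le_ofReal_iff (Real.exp_pos _).le).1 h3
    linarith only [h4, h6]
  have hΛ0 : 0 ≤ Real.log (1 / ε) := by
    apply Real.log_nonneg
    rw [le_div_iff₀ hε]; linarith only [hε2]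
  have hlb0 : 0 ≤ Real.logb 2 (1 / ε) := by
    unfold Real.logb
    have : 0 < Real.log 2 := Real.log_pos (by norm_num)
    positivity
  have hlogd : 2 ≤ Real.log d := by
    have h3 : Real.log 32 ≤ Real.log d := Real.log_le_log (by norm_num) hd32'
    have h4 : Real.log 32 = 5 * Real.log 2 := by
      rw [show (32 : ℝ) = 2 ^ 5 by norm_num, Real.log_pow]; norm_num
    have := Real.log_two_gt_d9
    linarith only [h3, h4, this]
  refine ⟨hlow, hconv, fun hM' => ⟨Upper.leastHorizon_eq_top d ε (by omega) hε M hM',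
    fun T L hL => few_states (by omega) hε hM' T L hL⟩, ?_, ?_, ?_⟩
  · intro hM' hΛ
    have hlog : Real.logb 2 (1 / ε) ≤ 2 * C₀ * d := by
      have h2 : ((d : ℝ) - 1) * Real.logb 2 (1 / ε) ≤ C₀ * d ^ 2 := by
        have : 0 ≤ (2 * C₀ + 16) * (d : ℝ) := by positivity
        linarith only [hM', hM, this]
      have h3 : (d : ℝ) / 2 * Real.logb 2 (1 / ε) ≤ (d - 1) * Real.logb 2 (1 / ε) := by
        apply mul_le_mul_of_nonneg_right _ hlb0
        linarith only [hd32']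
      have h4 : (d : ℝ) * Real.logb 2 (1 / ε) ≤ d * (2 * C₀ * d) := by nlinarith only [h2, h3]
      exact le_of_mul_le_mul_left h4 hd0
    obtain ⟨T, hT, hL⟩ := upper_real hd32 hε hε2 (A := 1) (M := M) le_rfl (by
      linarith only [hM', hlog])
    refine leastHorizon_of_learner (hT.trans ?_)
      (hL.imp fun L h => ⟨h.1, succeeds_of_forall (by omega) h.2⟩) hlow
    have h5 := log_term_le hlogd hΛ
    have h6 : 2 * 10 ^ 9 * (d : ℝ) * (Real.log (1 / ε) +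
        Real.log d * Real.log (1 + Real.log (1 / ε) / 1)) ≤
        2 * 10 ^ 9 * (d : ℝ) * (4 * Real.log (1 / ε)) := by
      apply mul_le_mul_of_nonneg_left _ (by positivity)
      linarith only [h5]
    have h7 : 0 ≤ (d : ℝ) * Real.log (1 / ε) := by positivity
    linarith only [h6, h7]
  · intro A hA hM'
    obtain ⟨T, hT, hL⟩ := upper_real hd32 hε hε2 (M := M) hA hM'
    obtain ⟨T₁, hT₁, hT₂, hT₃⟩ := leastHorizon_of_learner (X := T) le_rfl
      (hL.imp fun L h => ⟨h.1, succeeds_of_forall (by omega) h.2⟩) hlow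
    refine ⟨T₁, T, hT₁, hT₂, by exact_mod_cast hT₃, hT.trans ?_,
      hL.imp fun L h => ⟨h.1, fun s hs => h.2 ⟨s, by simpa using hs⟩⟩⟩
    have h3 : 0 ≤ Real.log (1 + Real.log (1 / ε) / A) := by
      apply Real.log_nonneg
      have : 0 ≤ Real.log (1 / ε) / A := by positivity
      linarith only [this]
    have hld : 0 ≤ Real.log d := by linarith only [hlogd]
    have h7 : 0 ≤ (d : ℝ) * (Real.log (1 / ε) +
        Real.log d * Real.log (1 + Real.log (1 / ε) / A)) := by positivity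
    linarith only [h7]
  · intro hM'
    obtain ⟨T, hT, hT'⟩ := Upper.leastHorizon_le d ε (by omega) hε hε2 M hM'
    refine ⟨T, hT, ?_, hT'⟩
    obtain ⟨L, -, hL⟩ := leastHorizon_spec hT
    exact hlow T L hL

end P309.LMS
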