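import Vale.Agent.P309.Bdl.B1

/-!
# P309: moments of linear forms of a standard Gaussian vector, and one LMS coordinate
-/

open MeasureTheory ProbabilityTheory Metric Set Filter
open scoped ENNReal NNReal RealInnerProductSpace

namespace P309.LMS

variable {d : ℕ}

lemma lintegral_fourth_le (e : Vec d) :
    ∫⁻ x, ENNReal.ofReal (⟪x, e⟫ ^ 4) ∂(stdGaussian (Vec d)) ≤ ENNReal.ofReal (48 * ‖e‖ ^ 4) := by
  by_cases he : e = 0
  · subst he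
    simp
  have he0 : 0 < ‖e‖ := norm_pos_iff.2 he
  have h1 := lintegral_exp_sq_stdGaussian e he
  have h2 : ∀ x : Vec d, ENNReal.ofReal (⟪x, e⟫ ^ 4) ≤
      ENNReal.ofReal (32 * ‖e‖ ^ 4) * ENNReal.ofReal (Real.exp (⟪x, e⟫ ^ 2 / (4 * ‖e‖ ^ 2))) := by
    intro x
    rw [← ENNReal.ofReal_mul (by positivity)]
    apply ENNReal.ofReal_le_ofReal
    set y : ℝ := ⟪x, e⟫ ^ 2 / (4 * ‖e‖ ^ 2) with hy
    have hy0 : 0 ≤ y := by positivity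
    have h3 : y ^ 2 / 2 ≤ Real.exp y := by
      have := Real.quadratic_le_exp_of_nonneg hy0
      linarith only [this, hy0]
    have h4 : ⟪x, e⟫ ^ 4 = 32 * ‖e‖ ^ 4 * (y ^ 2 / 2) := by
      rw [hy]
      field_simp
      ring
    rw [h4]
    exact mul_le_mul_of_nonneg_left h3 (by positivity)
  calc ∫⁻ x, ENNReal.ofReal (⟪x, e⟫ ^ 4) ∂(stdGaussian (Vec d))
      ≤ ∫⁻ x, ENNReal.ofReal (32 * ‖e‖ ^ 4) *
          ENNReal.ofReal (Real.exp (⟪x, e⟫ ^ 2 / (4 * ‖e‖ ^ 2))) ∂(stdGaussian (Vec d)) :=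
        lintegral_mono h2
    _ = ENNReal.ofReal (32 * ‖e‖ ^ 4) * ENNReal.ofReal (√2) := by
        rw [lintegral_const_mul _ (by fun_prop), h1]
    _ = ENNReal.ofReal (32 * ‖e‖ ^ 4 * √2) := by
        rw [ENNReal.ofReal_mul (p := 32 * ‖e‖ ^ 4) (by positivity)]
    _ ≤ _ := by
        apply ENNReal.ofReal_le_ofReal
        have h5 : √2 ≤ 3 / 2 := by
          rw [Real.sqrt_le_left (by norm_num)]
          norm_num
        have h6 : 0 ≤ ‖e‖ ^ 4 := by positivity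
        nlinarith only [h5, h6]

lemma fourth (e : Vec d) : Integrable (fun x : Vec d => ⟪x, e⟫ ^ 4) (stdGaussian (Vec d)) ∧
    ∫ x, ⟪x, e⟫ ^ 4 ∂(stdGaussian (Vec d)) ≤ 48 * ‖e‖ ^ 4 := by
  have h0 : ∀ x : Vec d, 0 ≤ ⟪x, e⟫ ^ 4 := fun x => by positivity
  have hle := lintegral_fourth_le e
  constructor
  · refine ⟨by fun_prop, ?_⟩
    rw [hasFiniteIntegral_iff_ofReal (Eventually.of_forall h0)]
    exact lt_of_le_of_lt hle ENNReal.ofReal_lt_top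
  · rw [integral_eq_lintegral_of_nonneg_ae (Eventually.of_forall h0) (by fun_prop)]
    exact ENNReal.toReal_le_of_le_ofReal (by positivity) hle

lemma second (e f : Vec d) :
    Integrable (fun x : Vec d => ⟪x, e⟫ * ⟪x, f⟫) (stdGaussian (Vec d)) ∧
    ∫ x, ⟪x, e⟫ * ⟪x, f⟫ ∂(stdGaussian (Vec d)) = ⟪e, f⟫ := by
  have hm : ∀ e : Vec d, MemLp (fun x : Vec d => ⟪e, x⟫) 2 (stdGaussian (Vec d)) := fun e =>
    (IsGaussian.memLp_two_id (μ := stdGaussian (Vec d))).const_inner e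
  have hz : ∀ e : Vec d, ∫ x, ⟪e, x⟫ ∂(stdGaussian (Vec d)) = 0 := fun e =>
    integral_strongDual_stdGaussian (innerSL ℝ e)
  have h1 : cov[fun x : Vec d => ⟪e, x⟫, fun x : Vec d => ⟪f, x⟫; stdGaussian (Vec d)] = ⟪e, f⟫ := by
    rw [← covarianceBilin_apply_eq_cov (IsGaussian.memLp_two_id (μ := stdGaussian (Vec d))) e f,
      covarianceBilin_stdGaussian]
    rfl
  have h2 := covariance_eq_sub (hm e) (hm f)
  constructor
  · have := (hm e).integrable_mul (hm f)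
    refine this.congr (Eventually.of_forall fun x => ?_)
    simp only [Pi.mul_apply, real_inner_comm]
  · rw [h1, hz e, hz f, mul_zero, sub_zero] at h2
    rw [h2]
    refine integral_congr_ae (Eventually.of_forall fun x => ?_)
    simp only [Pi.mul_apply, real_inner_comm]

lemma mixed (e : Vec d) (i : Fin d) :
    Integrable (fun x : Vec d => ⟪x, e⟫ ^ 2 * (x i) ^ 2) (stdGaussian (Vec d)) ∧
    ∫ x, ⟪x, e⟫ ^ 2 * (x i) ^ 2 ∂(stdGaussian (Vec d)) ≤ 48 * ‖e‖ ^ 2 := by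
  by_cases he : e = 0
  · subst he
    simp
  have he0 : 0 < ‖e‖ := norm_pos_iff.2 he
  set u : Vec d := EuclideanSpace.single i 1 with hu
  have hun : ‖u‖ = 1 := by simp [hu]
  have hxi : ∀ x : Vec d, x i = ⟪x, u⟫ := fun x => by
    simp [hu, EuclideanSpace.inner_single_right]
  obtain ⟨hi1, hb1⟩ := fourth e
  obtain ⟨hi2, hb2⟩ := fourth u
  have hle : ∀ x : Vec d, ⟪x, e⟫ ^ 2 * (x i) ^ 2 ≤
      (1 / 2 * (‖e‖ ^ 2)⁻¹) * ⟪x, e⟫ ^ 4 + (1 / 2 * ‖e‖ ^ 2) * ⟪x, u⟫ ^ 4 := by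
    intro x
    rw [hxi]
    have h3 : (1 / 2 * (‖e‖ ^ 2)⁻¹) * ⟪x, e⟫ ^ 4 + (1 / 2 * ‖e‖ ^ 2) * ⟪x, u⟫ ^ 4 -
        ⟪x, e⟫ ^ 2 * ⟪x, u⟫ ^ 2 = 1 / 2 * (‖e‖⁻¹ * ⟪x, e⟫ ^ 2 - ‖e‖ * ⟪x, u⟫ ^ 2) ^ 2 := by
      field_simp
      ring
    have h4 : 0 ≤ 1 / 2 * (‖e‖⁻¹ * ⟪x, e⟫ ^ 2 - ‖e‖ * ⟪x, u⟫ ^ 2) ^ 2 := by positivity
    linarith only [h3, h4]
  have hint : Integrable (fun x : Vec d => (1 / 2 * (‖e‖ ^ 2)⁻¹) * ⟪x, e⟫ ^ 4 +
      (1 / 2 * ‖e‖ ^ 2) * ⟪x, u⟫ ^ 4) (stdGaussian (Vec d)) :=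
    (hi1.const_mul _).add (hi2.const_mul _)
  have hm : Integrable (fun x : Vec d => ⟪x, e⟫ ^ 2 * (x i) ^ 2) (stdGaussian (Vec d)) := by
    refine hint.mono (by fun_prop) (Eventually.of_forall fun x => ?_)
    rw [Real.norm_eq_abs, Real.norm_eq_abs, abs_of_nonneg (by positivity), abs_of_nonneg]
    · exact hle x
    · positivity
  refine ⟨hm, ?_⟩
  calc ∫ x, ⟪x, e⟫ ^ 2 * (x i) ^ 2 ∂(stdGaussian (Vec d))
      ≤ ∫ x, ((1 / 2 * (‖e‖ ^ 2)⁻¹) * ⟪x, e⟫ ^ 4 + (1 / 2 * ‖e‖ ^ 2) * ⟪x, u⟫ ^ 4)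
          ∂(stdGaussian (Vec d)) := integral_mono hm hint hle
    _ = (1 / 2 * (‖e‖ ^ 2)⁻¹) * ∫ x, ⟪x, e⟫ ^ 4 ∂(stdGaussian (Vec d)) +
          (1 / 2 * ‖e‖ ^ 2) * ∫ x, ⟪x, u⟫ ^ 4 ∂(stdGaussian (Vec d)) := by
        rw [integral_add (hi1.const_mul _) (hi2.const_mul _), integral_const_mul,
          integral_const_mul]
    _ ≤ (1 / 2 * (‖e‖ ^ 2)⁻¹) * (48 * ‖e‖ ^ 4) + (1 / 2 * ‖e‖ ^ 2) * (48 * ‖u‖ ^ 4) := by
        gcongr
    _ = 48 * ‖e‖ ^ 2 := by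
        rw [hun]
        field_simp
        ring

/-- One coordinate of the LMS step. -/
theorem lms_coord (γ : ℝ) (e : Vec d) (i : Fin d) :
    Integrable (fun x : Vec d => (e i - γ * ⟪x, e⟫ * x i) ^ 2) (stdGaussian (Vec d)) ∧
    ∫ x, (e i - γ * ⟪x, e⟫ * x i) ^ 2 ∂(stdGaussian (Vec d)) ≤
      (1 - 2 * γ) * (e i) ^ 2 + 48 * γ ^ 2 * ‖e‖ ^ 2 := by
  set u : Vec d := EuclideanSpace.single i 1 with hu
  have hxi : ∀ x : Vec d, x i = ⟪x, u⟫ := fun x => by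
    simp [hu, EuclideanSpace.inner_single_right]
  obtain ⟨hi1, hb1⟩ := mixed e i
  obtain ⟨hi2, hb2⟩ := second e u
  have heu : ⟪e, u⟫ = e i := (hxi e).symm
  have h1 : (fun x : Vec d => (e i - γ * ⟪x, e⟫ * x i) ^ 2) = fun x : Vec d =>
      ((e i) ^ 2 - 2 * γ * e i * (⟪x, e⟫ * ⟪x, u⟫)) + γ ^ 2 * (⟪x, e⟫ ^ 2 * (x i) ^ 2) := by
    funext x
    rw [← hxi x]
    ring
  have hc : Integrable (fun _ : Vec d => (e i) ^ 2) (stdGaussian (Vec d)) := integrable_const _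
  have hA : Integrable (fun x : Vec d => (e i) ^ 2 - 2 * γ * e i * (⟪x, e⟫ * ⟪x, u⟫))
      (stdGaussian (Vec d)) := hc.sub (hi2.const_mul _)
  have hB : Integrable (fun x : Vec d => γ ^ 2 * (⟪x, e⟫ ^ 2 * (x i) ^ 2))
      (stdGaussian (Vec d)) := hi1.const_mul _
  rw [h1]
  refine ⟨hA.add hB, ?_⟩
  rw [integral_add hA hB, integral_sub hc (hi2.const_mul _), integral_const_mul,
    integral_const_mul, hb2, heu, integral_const]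
  simp only [probReal_univ, smul_eq_mul, one_mul]
  have h2 : γ ^ 2 * ∫ x, ⟪x, e⟫ ^ 2 * (x i) ^ 2 ∂(stdGaussian (Vec d)) ≤
      γ ^ 2 * (48 * ‖e‖ ^ 2) := by gcongr
  linarith only [h2]

end P309.LMS
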