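import Vale.Agent.P309.H362.Step

/-!
# P309: programs of block LMS steps and their realisation by learners
-/

open MeasureTheory ProbabilityTheory Metric Set Filter
open scoped ENNReal NNReal RealInnerProductSpace

namespace P309.LMS

variable {d N : ℕ}

/-- The success probability of a program started at the point `z`. -/
noncomputable def Wn (u0 : Sph d) (γ ε : ℝ) (s : Vec d) : List (Stp d) → Vec d → ℝ≥0∞
  | [], z => if Real.arccos ⟪(Upper.dirn u0 z : Vec d), s⟫ ≤ ε then 1 else 0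
  | st :: p, z => ∫⁻ x, Wn u0 γ ε s p (upd γ 5 st z x ⟪x, s⟫) ∂(stdGaussian (Vec d))

/-- The points of `S` can be stored with `N` states. -/
def Coded (N : ℕ) (S : Set (Vec d)) : Prop :=
  ∃ (pt : Fin N → Vec d) (cd : Vec d → Fin N), Measurable cd ∧ ∀ v ∈ S, pt (cd v) = v

lemma Coded.mono {S S' : Set (Vec d)} (h : Coded N S) (hS : S' ⊆ S) : Coded N S' := by
  obtain ⟨pt, cd, hm, hv⟩ := h
  exact ⟨pt, cd, hm, fun v hv' => hv v (hS hv')⟩

/-- Shifting the index of a learner. -/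
lemma win_shift (L L' : Learner (Vec d) N) (hF : L'.FixedOutput) (ho : L.out = L'.out)
    (hs : ∀ t, L.step (t + 1) = L'.step t) (ε : ℝ) (s : Vec d) (k : ℕ) :
    ∀ t q, L.win ε k (t + 1) q s = L'.win ε k t q s := by
  have hg : ∀ t q, L.good ε (t + 1) q s = L'.good ε t q s := by
    intro t q
    unfold Learner.good
    rw [ho, hF (t + 1), hF t]
  induction k with
  | zero =>
    intro t q
    rw [Learner.win, Learner.win, hg]
  | succ k ih =>
    intro t q
    rw [Learner.win, Learner.win, hs]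
    simp only [hg, ih]

/-- A learner with one more deterministic step at the beginning. -/
noncomputable def consL (L' : Learner (Vec d) N) (F : Fin N × Vec d × ℝ → Fin N)
    (hF : Measurable F) (q0 : Fin N) : Learner (Vec d) N where
  init := Measure.dirac q0
  init_prob := by infer_instance
  step := fun t => match t with
    | 0 => Kernel.deterministic (fun p => (false, F p)) (measurable_const.prodMk hF)
    | t + 1 => L'.step t
  step_markov := by
    rintro (_ | t)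
    · exact Kernel.isMarkovKernel_deterministic _
    · exact L'.step_markov t
  out := L'.out
  out_markov := L'.out_markov

lemma consL_win (L' : Learner (Vec d) N) (hF' : L'.FixedOutput) (F : Fin N × Vec d × ℝ → Fin N)
    (hF : Measurable F) (q0 : Fin N) (ε : ℝ) (s : Vec d) (k : ℕ) (q : Fin N) :
    (consL L' F hF q0).win ε (k + 1) 0 q s =
      ∫⁻ x, L'.win ε k 0 (F (q, x, ⟪x, s⟫)) s ∂(stdGaussian (Vec d)) := by
  rw [Learner.win]
  refine lintegral_congr fun x => ?_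
  change ∫⁻ p, _ ∂(Kernel.deterministic (fun p : Fin N × Vec d × ℝ => (false, F p))
    (measurable_const.prodMk hF) (q, x, ⟪x, s⟫)) = _
  rw [Kernel.deterministic_apply, lintegral_dirac]
  simp only [Bool.false_eq_true, if_false]
  exact win_shift (consL L' F hF q0) L' hF' rfl (fun t => rfl) ε s k 0 _

/-- A program can be run by a learner with `N` states. -/
theorem realize (u0 : Sph d) (γ ε : ℝ) : ∀ (p : List (Stp d)),
    (∀ st ∈ p, (∀ i, 0 < st.h i) ∧ Coded N (Grid st.h 5)) →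
    ∀ (S : Set (Vec d)), (∀ z ∈ S, ‖z‖ ≤ 5) → Coded N S →
    ∃ (L : Learner (Vec d) N) (cd : Vec d → Fin N), Measurable cd ∧ L.FixedOutput ∧
      L.init = Measure.dirac (cd 0) ∧
      ∀ z ∈ S, ∀ s : Vec d, L.win ε p.length 0 (cd z) s = Wn u0 γ ε s p z := by
  intro p
  induction p with
  | nil =>
    intro _ S _ hC
    obtain ⟨pt, cd, hcd, hpt⟩ := hC
    refine ⟨{ init := Measure.dirac (cd 0)
              init_prob := by infer_instance
              step := fun _ => Kernel.deterministic (fun p => (false, p.1)) (by fun_prop)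
              step_markov := fun _ => by infer_instance
              out := fun _ => Kernel.deterministic (fun q => Upper.dirn u0 (pt q))
                (measurable_of_countable _)
              out_markov := fun _ => by infer_instance }, cd, hcd, fun t => rfl, rfl, ?_⟩
    intro z hz s
    rw [List.length_nil, Learner.win, Learner.good]
    change (Kernel.deterministic (fun q => Upper.dirn u0 (pt q)) (measurable_of_countable _)
      (cd z)) _ = _
    rw [Kernel.deterministic_apply' _ _ (Upper.measurable_good s ε), hpt z hz, Wn]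
    simp only [indicator, mem_ofPred_eq]
  | cons st p ih =>
    intro hp S hS hC
    obtain ⟨pt, cd, hcd, hpt⟩ := hC
    have hst := hp st (List.mem_cons_self ..)
    obtain ⟨L', cd', hcd', hF', hI', hW'⟩ := ih (fun st' h => hp st' (List.mem_cons_of_mem _ h))
      (Grid st.h 5) (fun z hz => hz.1) hst.2
    have hF : Measurable (fun p : Fin N × Vec d × ℝ =>
        cd' (upd γ 5 st (pt p.1) p.2.1 p.2.2)) := by
      refine hcd'.comp ?_
      refine (measurable_upd γ 5 st).comp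
        (f := fun p : Fin N × Vec d × ℝ => (pt p.1, p.2.1, p.2.2)) ?_
      exact ((measurable_of_countable pt).comp measurable_fst).prodMk
        ((measurable_fst.comp measurable_snd).prodMk (measurable_snd.comp measurable_snd))
    refine ⟨consL L' _ hF (cd 0), cd, hcd, hF', rfl, ?_⟩
    intro z hz s
    rw [List.length_cons, consL_win L' hF', Wn]
    refine lintegral_congr fun x => ?_
    rw [hpt z hz]
    exact hW' _ (upd_mem γ 5 st hst.1 (hS z hz) x _) s

/-- The potential `pot s a c` bounds the failure probability of some program with `k` steps,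
started at a point of `S`. -/
def Reach (N : ℕ) (u0 : Sph d) (γ ε : ℝ) (k : ℕ) (S : Set (Vec d)) (a : Fin d → ℝ) (c : ℝ) :
    Prop :=
  ∃ p : List (Stp d), p.length = k ∧ (∀ st ∈ p, (∀ i, 0 < st.h i) ∧ Coded N (Grid st.h 5)) ∧
    ∀ s : Vec d, ‖s‖ = 1 → ∀ z ∈ S, 1 ≤ Wn u0 γ ε s p z + ENNReal.ofReal (pot s a c z)

lemma pot_mono {s z : Vec d} {a a' : Fin d → ℝ} {c c' : ℝ} (ha : ∀ i, a i ≤ a' i)
    (hc : c ≤ c') : pot s a c z ≤ pot s a' c' z := by
  unfold pot
  have : ∑ i, a i * (z i - s i) ^ 2 ≤ ∑ i, a' i * (z i - s i) ^ 2 :=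
    Finset.sum_le_sum fun i _ => mul_le_mul_of_nonneg_right (ha i) (sq_nonneg _)
  linarith only [this, hc]

lemma le_pot {s z : Vec d} {a : Fin d → ℝ} {c b : ℝ} (ha : ∀ i, b ≤ a i) (hc : 0 ≤ c) :
    b * ‖z - s‖ ^ 2 ≤ pot s a c z := by
  unfold pot
  rw [norm_sq_eq, Finset.mul_sum]
  have : ∑ i, b * ((z - s) i) ^ 2 ≤ ∑ i, a i * (z i - s i) ^ 2 :=
    Finset.sum_le_sum fun i _ => mul_le_mul_of_nonneg_right (ha i) (sq_nonneg _)
  linarith only [this, hc]

lemma Reach.mono {u0 : Sph d} {γ ε : ℝ} {k : ℕ} {S S' : Set (Vec d)} {a a' : Fin d → ℝ}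
    {c c' : ℝ} (h : Reach N u0 γ ε k S a c) (hS : S' ⊆ S) (ha : ∀ i, a i ≤ a' i) (hc : c ≤ c') :
    Reach N u0 γ ε k S' a' c' := by
  obtain ⟨p, hp1, hp2, hp3⟩ := h
  refine ⟨p, hp1, hp2, fun s hs z hz => (hp3 s hs z (hS hz)).trans ?_⟩
  have := ENNReal.ofReal_le_ofReal (pot_mono (s := s) (z := z) ha hc)
  gcongr

lemma Reach.zero (u0 : Sph d) (γ : ℝ) {ε : ℝ} (hε0 : 0 < ε) (hε1 : ε ≤ 1 / 2) (S : Set (Vec d))
    {a : Fin d → ℝ} {c : ℝ} (ha : ∀ i, 16 / ε ^ 2 ≤ a i) (hc : 0 ≤ c) :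
    Reach N u0 γ ε 0 S a c := by
  refine ⟨[], rfl, fun st h => absurd h List.not_mem_nil, fun s hs z _ => ?_⟩
  rcases le_or_gt ‖z - s‖ (ε / 4) with h | h
  · rw [Wn, if_pos (Upper.dirn_good u0 hε0 hε1 hs h)]
    exact le_self_add
  · refine le_trans ?_ le_add_self
    rw [← ENNReal.ofReal_one]
    apply ENNReal.ofReal_le_ofReal
    refine le_trans ?_ (le_pot ha hc)
    have h1 : (ε / 4) ^ 2 ≤ ‖z - s‖ ^ 2 := pow_le_pow_left₀ (by positivity) h.le 2
    calc (1 : ℝ) = 16 / ε ^ 2 * (ε / 4) ^ 2 := by field_simp; norm_num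
      _ ≤ _ := by gcongr

/-- One more step at the beginning of the program. -/
theorem Reach.step {u0 : Sph d} {γ ε η α c c' : ℝ} {k : ℕ} {st : Stp d} {a a' : Fin d → ℝ}
    (h : Reach N u0 γ ε k (Grid st.h 5) a c) (hh : ∀ i, 0 < st.h i)
    (hC : Coded N (Grid st.h 5)) (hη : 0 < η) (hα : 0 ≤ α) (hc : 0 ≤ c)
    (ha0 : ∀ i, 0 ≤ a i) (ha : ∀ i ∈ st.B, a i = α)
    (haB : ∀ i ∈ st.B, α * (1 + η) * (1 - 2 * γ + 48 * st.B.card * γ ^ 2) ≤ a' i)
    (haC : ∀ i ∉ st.B, a i + α * (1 + η) * (48 * st.B.card * γ ^ 2) ≤ a' i)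
    (hcc : c + α * (1 + 1 / η) * ∑ i ∈ st.B, (st.h i) ^ 2 ≤ c')
    (ha' : ∀ i, 1 / 16 ≤ a' i)
    {S : Set (Vec d)} (hS : ∀ z ∈ S, ‖z‖ ≤ 5 ∧ ∀ i ∉ st.B, ∃ m : ℤ, z i = st.h i * m) :
    Reach N u0 γ ε (k + 1) S a' c' := by
  obtain ⟨p, hp1, hp2, hp3⟩ := h
  refine ⟨st :: p, by simp [hp1], ?_, ?_⟩
  · intro st' hst'
    rcases List.mem_cons.1 hst' with h | h
    · subst h
      exact ⟨hh, hC⟩
    · exact hp2 st' h
  · intro s hs z hz
    rcases le_or_gt ‖z - s‖ 4 with h | h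
    · rw [Wn]
      have h1 := lintegral_pot_upd_le (ρ := 5) hη hα hc hh ha0 ha haB haC hcc hs
        (hS z hz).2 (by linarith only [h])
      have hm : Measurable (fun x => ENNReal.ofReal (pot s a c (upd γ 5 st z x ⟪x, s⟫))) := by
        refine ((measurable_pot s a c).comp ?_).ennreal_ofReal
        exact (measurable_upd γ 5 st).comp (g := fun p : Vec d × Vec d × ℝ =>
          upd γ 5 st p.1 p.2.1 p.2.2) (f := fun x : Vec d => (z, x, ⟪x, s⟫)) (by fun_prop)
      calc (1 : ℝ≥0∞) = ∫⁻ _x : Vec d, 1 ∂(stdGaussian (Vec d)) := by simp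
        _ ≤ ∫⁻ x, (Wn u0 γ ε s p (upd γ 5 st z x ⟪x, s⟫) +
              ENNReal.ofReal (pot s a c (upd γ 5 st z x ⟪x, s⟫))) ∂(stdGaussian (Vec d)) :=
            lintegral_mono fun x => hp3 s hs _ (upd_mem γ 5 st hh (hS z hz).1 x _)
        _ = ∫⁻ x, Wn u0 γ ε s p (upd γ 5 st z x ⟪x, s⟫) ∂(stdGaussian (Vec d)) +
              ∫⁻ x, ENNReal.ofReal (pot s a c (upd γ 5 st z x ⟪x, s⟫)) ∂(stdGaussian (Vec d)) :=
            lintegral_add_right _ hm
        _ ≤ _ := by gcongr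
    · refine le_trans ?_ le_add_self
      rw [← ENNReal.ofReal_one]
      apply ENNReal.ofReal_le_ofReal
      have hc' : 0 ≤ c' := by
        have h1 : 0 ≤ α * (1 + 1 / η) * ∑ i ∈ st.B, (st.h i) ^ 2 := by positivity
        linarith only [h1, hcc, hc]
      refine le_trans ?_ (le_pot ha' hc')
      nlinarith only [h]

/-- From a potential to a learner. -/
theorem Reach.succeeds {u0 : Sph d} {γ ε : ℝ} {k : ℕ} {S : Set (Vec d)}
    {a : Fin d → ℝ} {c : ℝ} (h : Reach N u0 γ ε k S a c) (hS : ∀ z ∈ S, ‖z‖ ≤ 5)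
    (hC : Coded N S) (h0 : (0 : Vec d) ∈ S) (ha : ∀ i, a i ≤ 1 / 6) (hc : c ≤ 1 / 6) :
    ∃ L : Learner (Vec d) N, L.FixedOutput ∧
      ∀ s : Sph d, 2 / 3 ≤ ∫⁻ q, L.win ε k 0 q (s : Vec d) ∂L.init := by
  obtain ⟨p, hp1, hp2, hp3⟩ := h
  obtain ⟨L, cd, -, hF, hI, hW⟩ := realize u0 γ ε p hp2 S hS hC
  refine ⟨L, hF, ?_⟩
  have key : ∀ s : Sph d, 2 / 3 ≤ L.win ε k 0 (cd 0) (s : Vec d) := by
    intro s
    have hs : ‖(s : Vec d)‖ = 1 := by simp
    have h1 := hp3 s hs 0 h0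
    rw [← hW 0 h0, hp1] at h1
    have h2 : pot (s : Vec d) a c 0 ≤ 1 / 3 := by
      have h3 : pot (s : Vec d) a c 0 ≤ pot (s : Vec d) (fun _ => 1 / 6) (1 / 6) 0 :=
        pot_mono ha hc
      refine h3.trans ?_
      unfold pot
      have h4 : ∑ i, (1 / 6 : ℝ) * ((0 : Vec d) i - (s : Vec d) i) ^ 2 = 1 / 6 * ‖(s : Vec d)‖ ^ 2 := by
        rw [norm_sq_eq, Finset.mul_sum]
        exact Finset.sum_congr rfl fun i _ => by simp
      rw [h4, hs]
      norm_num
    have h4 : ENNReal.ofReal (pot (s : Vec d) a c 0) ≤ 1 / 3 := by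
      calc _ ≤ ENNReal.ofReal (1 / 3) := ENNReal.ofReal_le_ofReal h2
        _ = 1 / 3 := by
          rw [ENNReal.ofReal_div_of_pos (by norm_num)]; simp
    have h5 : (1 : ℝ≥0∞) ≤ L.win ε k 0 (cd 0) (s : Vec d) + 1 / 3 := h1.trans (by gcongr)
    have e1 : (1 : ℝ≥0∞) = 2 / 3 + 1 / 3 := by
      rw [← ENNReal.add_div]
      norm_num
      exact (ENNReal.div_self (by norm_num) (by norm_num)).symm
    have h6 : (2 / 3 : ℝ≥0∞) + 1 / 3 ≤ L.win ε k 0 (cd 0) (s : Vec d) + 1 / 3 :=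
      e1.symm.le.trans h5
    exact (ENNReal.add_le_add_iff_right (by simp)).mp h6
  intro s
  rw [hI, lintegral_dirac]
  exact key s

/-- Success for every signal implies success. -/
theorem succeeds_of_forall (hd : 1 ≤ d) {L : Learner (Vec d) N} {ε : ℝ} {T : ℕ}
    (h : ∀ s : Sph d, 2 / 3 ≤ ∫⁻ q, L.win ε T 0 q (s : Vec d) ∂L.init) : L.Succeeds T ε := by
  have := Upper.isProb_unifSphere hd
  unfold Learner.Succeeds
  calc (2 / 3 : ℝ≥0∞) = ∫⁻ _s : Sph d, 2 / 3 ∂(unifSphere (Vec d)) := by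
        simp only [lintegral_const, measure_univ, mul_one]
    _ ≤ _ := lintegral_mono h

end P309.LMS
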