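import Vale.Agent.P309.H362.ReadsDefs
import Vale.Agent.P309.H362.Main

/-!
# P309: lower bound for the number of samples read
-/

open MeasureTheory ProbabilityTheory Metric Set Filter
open scoped ENNReal NNReal RealInnerProductSpace

namespace P309.LMS

variable {d N : ℕ}

/-- Probability that the learner reads at least `n` further samples. -/
noncomputable def _root_.P309.Learner.late (L : Learner (Vec d) N) :
    ℕ → ℕ → ℕ → Fin N → Vec d → ℝ≥0∞
  | 0, _, _, _, _ => 1
  | _ + 1, 0, _, _, _ => 0
  | n + 1, k + 1, t, q, s => ∫⁻ x, ∫⁻ p, (if p.1 = true then (if n = 0 then 1 else 0)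
      else L.late n k (t + 1) p.2 s) ∂(L.step t (q, x, ⟪x, s⟫)) ∂(stdGaussian (Vec d))

/-- The probability that the learner run with horizon `T` reads at least `n` samples. -/
noncomputable def _root_.P309.Learner.readProb (L : Learner (Vec d) N) (T n : ℕ) : ℝ≥0∞ :=
  ∫⁻ s, ∫⁻ q, L.late n T 0 q (s : Vec d) ∂L.init ∂(unifSphere (Vec d))

lemma early_le_win_self (L : Learner (Vec d) N) (ε : ℝ) (n k t : ℕ) (q : Fin N) (s : Vec d) :
    L.early ε n k t q s ≤ L.win ε k t q s := by
  induction k generalizing n t q with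
  | zero =>
    cases n with
    | zero => exact zero_le
    | succ n => exact le_rfl
  | succ k ih =>
    cases n with
    | zero => exact zero_le
    | succ n =>
      apply lintegral_mono
      intro x
      apply lintegral_mono
      intro p
      dsimp only
      by_cases hp : p.1 = true
      · simp only [hp, if_true]
        split_ifs
        · exact zero_le
        · exact le_rfl
      · simp only [hp]
        exact ih n (t + 1) p.2

lemma early_le_win (L : Learner (Vec d) N) (ε : ℝ) (m k t : ℕ) (hmk : m ≤ k) (q : Fin N)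
    (s : Vec d) : L.early ε (m + 1) k t q s ≤ L.win ε m t q s := by
  induction m generalizing k t q with
  | zero =>
    cases k with
    | zero => exact le_rfl
    | succ k =>
      have h : L.early ε 1 (k + 1) t q s =
          ∫⁻ x, ∫⁻ _p, (0 : ℝ≥0∞) ∂(L.step t (q, x, ⟪x, s⟫)) ∂(stdGaussian (Vec d)) := by
        apply lintegral_congr
        intro x
        apply lintegral_congr
        intro p
        have h0 : L.early ε 0 k (t + 1) p.2 s = 0 := by
          cases k <;> rfl
        dsimp only
        rw [h0]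
        simp
      rw [h]
      simp
  | succ m ih =>
    cases k with
    | zero => omega
    | succ k =>
      apply lintegral_mono
      intro x
      apply lintegral_mono
      intro p
      dsimp only
      by_cases hp : p.1 = true
      · rw [if_pos hp, if_pos hp, if_neg (Nat.succ_ne_zero m)]
      · rw [if_neg hp, if_neg hp]
        exact ih k (t + 1) (by omega) p.2

theorem earlyProb_le_self (L : Learner (Vec d) N) (ε : ℝ) (n T : ℕ) :
    L.earlyProb T ε n ≤ L.successProb T ε :=
  lintegral_mono fun s => lintegral_mono fun q => early_le_win_self L ε n T 0 q s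

theorem earlyProb_le (L : Learner (Vec d) N) (ε : ℝ) {m T : ℕ} (h : m ≤ T) :
    L.earlyProb T ε (m + 1) ≤ L.successProb m ε :=
  lintegral_mono fun s => lintegral_mono fun q => early_le_win L ε m T 0 h q s

lemma late_zero (L : Learner (Vec d) N) (k t : ℕ) (q : Fin N) (s : Vec d) :
    L.late 0 k t q s = 1 := by
  cases k <;> rfl

lemma late_le_one (L : Learner (Vec d) N) (n k t : ℕ) (q : Fin N) (s : Vec d) :
    L.late n k t q s ≤ 1 := by
  induction k generalizing n t q with
  | zero =>
    cases n with
    | zero => rw [late_zero]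
    | succ n => exact zero_le
  | succ k ih =>
    cases n with
    | zero => rw [late_zero]
    | succ n =>
      calc L.late (n + 1) (k + 1) t q s
          ≤ ∫⁻ x, ∫⁻ _p, (1 : ℝ≥0∞) ∂(L.step t (q, x, ⟪x, s⟫)) ∂(stdGaussian (Vec d)) := by
            apply lintegral_mono
            intro x
            apply lintegral_mono
            intro p
            dsimp only
            split_ifs
            · exact le_rfl
            · exact zero_le
            · exact ih n (t + 1) p.2
        _ = 1 := by simp

lemma late_one (L : Learner (Vec d) N) (k t : ℕ) (q : Fin N) (s : Vec d) :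
    L.late 1 (k + 1) t q s = 1 := by
  have h : L.late 1 (k + 1) t q s =
      ∫⁻ x, ∫⁻ _p, (1 : ℝ≥0∞) ∂(L.step t (q, x, ⟪x, s⟫)) ∂(stdGaussian (Vec d)) := by
    apply lintegral_congr
    intro x
    apply lintegral_congr
    intro p
    dsimp only
    rw [late_zero]
    simp
  rw [h]
  simp

/-- The learner run with horizon `k` does better than the one run with horizon `m ≤ k` only if it
reads at least `m + 1` samples. -/
lemma win_le_add_late (L : Learner (Vec d) N) (ε : ℝ) (m k t : ℕ) (hmk : m ≤ k) (q : Fin N)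
    (s : Vec d) : L.win ε k t q s ≤ L.win ε m t q s + L.late (m + 1) k t q s := by
  induction m generalizing k t q with
  | zero =>
    cases k with
    | zero => exact le_self_add
    | succ k =>
      rw [late_one]
      exact (L.win_le_one ε _ t q s).trans le_add_self
  | succ m ih =>
    cases k with
    | zero => omega
    | succ k =>
      have hmk' : m ≤ k := by omega
      have h1 : ∀ x : Vec d, ∫⁻ p, (if p.1 = true then L.good ε (t + 1) p.2 s
          else L.win ε k (t + 1) p.2 s) ∂(L.step t (q, x, ⟪x, s⟫)) ≤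
          ∫⁻ p, (if p.1 = true then L.good ε (t + 1) p.2 s
          else L.win ε m (t + 1) p.2 s) ∂(L.step t (q, x, ⟪x, s⟫)) +
          ∫⁻ p, (if p.1 = true then (if m + 1 = 0 then 1 else 0)
          else L.late (m + 1) k (t + 1) p.2 s) ∂(L.step t (q, x, ⟪x, s⟫)) := by
        intro x
        rw [← lintegral_add_left (Measurable.of_discrete)]
        apply lintegral_mono
        intro p
        dsimp only
        by_cases hp : p.1 = true
        · simp only [hp, if_true]
          exact le_self_add
        · simp only [hp]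
          exact ih k (t + 1) hmk' p.2
      calc L.win ε (k + 1) t q s
          ≤ ∫⁻ x, (∫⁻ p, (if p.1 = true then L.good ε (t + 1) p.2 s
          else L.win ε m (t + 1) p.2 s) ∂(L.step t (q, x, ⟪x, s⟫)) +
          ∫⁻ p, (if p.1 = true then (if m + 1 = 0 then 1 else 0)
          else L.late (m + 1) k (t + 1) p.2 s) ∂(L.step t (q, x, ⟪x, s⟫)))
            ∂(stdGaussian (Vec d)) := lintegral_mono h1
        _ = L.win ε (m + 1) t q s + L.late (m + 2) (k + 1) t q s := by
          rw [lintegral_add_left]
          · rfl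
          · have e : (fun x : Vec d => ∫⁻ p, (if p.1 = true then L.good ε (t + 1) p.2 s
                else L.win ε m (t + 1) p.2 s) ∂(L.step t (q, x, ⟪x, s⟫))) = fun x : Vec d =>
                ∑ o, L.wt t q o (x, ⟪x, s⟫) * L.nxt ε m t o s := by
              funext x
              rw [lintegral_fintype]
              apply Finset.sum_congr rfl
              intro o _
              rw [mul_comm]
              rfl
            rw [e]
            apply Finset.measurable_sum
            intro o _
            exact ((L.measurable_wt t q o).comp (by fun_prop)).mul_const _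

/-- Markov inequality for the number of samples read. -/
lemma mul_late_le_reads (L : Learner (Vec d) N) (n k t : ℕ) (q : Fin N) (s : Vec d) :
    (n : ℝ≥0∞) * L.late n k t q s ≤ L.reads k t q s := by
  induction k generalizing n t q with
  | zero =>
    cases n with
    | zero => simp
    | succ n =>
      have : L.late (n + 1) 0 t q s = 0 := rfl
      rw [this, mul_zero]
      exact zero_le
  | succ k ih =>
    cases n with
    | zero => simp
    | succ n =>
      have h1 : (n : ℝ≥0∞) * L.late (n + 1) (k + 1) t q s ≤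
          ∫⁻ x, ∫⁻ p, (if p.1 = true then 0
            else L.reads k (t + 1) p.2 s) ∂(L.step t (q, x, ⟪x, s⟫)) ∂(stdGaussian (Vec d)) := by
        have e : L.late (n + 1) (k + 1) t q s = ∫⁻ x, ∫⁻ p, (if p.1 = true then
            (if n = 0 then 1 else 0) else L.late n k (t + 1) p.2 s) ∂(L.step t (q, x, ⟪x, s⟫))
            ∂(stdGaussian (Vec d)) := rfl
        rw [e, ← lintegral_const_mul' _ _ (ENNReal.natCast_ne_top n)]
        apply lintegral_mono
        intro x
        dsimp only
        rw [← lintegral_const_mul' _ _ (ENNReal.natCast_ne_top n)]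
        apply lintegral_mono
        intro p
        dsimp only
        by_cases hp : p.1 = true
        · simp only [hp, if_true]
          by_cases hn : n = 0
          · simp [hn]
          · simp [hn]
        · simp only [hp]
          exact ih n (t + 1) p.2
      calc ((n + 1 : ℕ) : ℝ≥0∞) * L.late (n + 1) (k + 1) t q s
          = L.late (n + 1) (k + 1) t q s + n * L.late (n + 1) (k + 1) t q s := by
            push_cast
            ring
        _ ≤ 1 + ∫⁻ x, ∫⁻ p, (if p.1 = true then 0
            else L.reads k (t + 1) p.2 s) ∂(L.step t (q, x, ⟪x, s⟫)) ∂(stdGaussian (Vec d)) :=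
          add_le_add (late_le_one L _ _ _ _ _) h1
        _ = L.reads (k + 1) t q s := rfl

lemma reads_le (L : Learner (Vec d) N) (k t : ℕ) (q : Fin N) (s : Vec d) :
    L.reads k t q s ≤ k := by
  induction k generalizing t q with
  | zero => exact le_of_eq (by simp [Learner.reads])
  | succ k ih =>
    calc L.reads (k + 1) t q s
        ≤ 1 + ∫⁻ x, ∫⁻ _p, (k : ℝ≥0∞) ∂(L.step t (q, x, ⟪x, s⟫)) ∂(stdGaussian (Vec d)) := by
          apply add_le_add le_rfl
          apply lintegral_mono
          intro x
          apply lintegral_mono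
          intro p
          dsimp only
          split_ifs
          · exact zero_le
          · exact ih (t + 1) p.2
      _ = ((k + 1 : ℕ) : ℝ≥0∞) := by
          simp [add_comm]

/-- Comparison of two horizons. -/
theorem successProb_le_add (L : Learner (Vec d) N) (ε : ℝ) {m T : ℕ} (h : m ≤ T) :
    L.successProb T ε ≤ L.successProb m ε + L.readProb T (m + 1) := by
  have h1 : ∀ s : Sph d, ∫⁻ q, L.win ε T 0 q (s : Vec d) ∂L.init ≤
      ∫⁻ q, L.win ε m 0 q (s : Vec d) ∂L.init + ∫⁻ q, L.late (m + 1) T 0 q (s : Vec d) ∂L.init := by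
    intro s
    rw [← lintegral_add_left (Measurable.of_discrete)]
    exact lintegral_mono fun q => win_le_add_late L ε m T 0 h q s
  calc L.successProb T ε
      ≤ ∫⁻ s : Sph d, (∫⁻ q, L.win ε m 0 q (s : Vec d) ∂L.init +
          ∫⁻ q, L.late (m + 1) T 0 q (s : Vec d) ∂L.init) ∂(unifSphere (Vec d)) :=
        lintegral_mono h1
    _ = L.successProb m ε + L.readProb T (m + 1) := by
        rw [lintegral_add_left]
        · rfl
        · have e : ∀ s : Sph d, ∫⁻ q, L.win ε m 0 q (s : Vec d) ∂L.init =
              ∑ q, L.win ε m 0 q (s : Vec d) * L.init {q} := fun s => lintegral_fintype _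
          simp_rw [e]
          apply Finset.measurable_sum
          intro q _
          apply Measurable.mul_const
          exact (L.measurable_win ε m 0 q).comp measurable_subtype_coe

theorem mul_readProb_le (L : Learner (Vec d) N) (n T : ℕ) :
    (n : ℝ≥0∞) * L.readProb T n ≤ L.meanReads T := by
  unfold Learner.readProb Learner.meanReads
  rw [← lintegral_const_mul' _ _ (ENNReal.natCast_ne_top n)]
  apply lintegral_mono
  intro s
  dsimp only
  rw [← lintegral_const_mul' _ _ (ENNReal.natCast_ne_top n)]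
  exact lintegral_mono fun q => mul_late_le_reads L n T 0 q s

theorem meanReads_le (hd : 1 ≤ d) (L : Learner (Vec d) N) (T : ℕ) : L.meanReads T ≤ T := by
  have : Nontrivial (Vec d) := by
    have : Nonempty (Fin d) := ⟨⟨0, hd⟩⟩
    infer_instance
  have : IsProbabilityMeasure (unifSphere (Vec d)) := by
    exact Upper.isProb_unifSphere hd
  calc L.meanReads T ≤ ∫⁻ _s : Sph d, ∫⁻ _q, (T : ℝ≥0∞) ∂L.init ∂(unifSphere (Vec d)) :=
        lintegral_mono fun s => lintegral_mono fun q => reads_le L T 0 q s
    _ = T := by simp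

/-- The number of samples read. -/
theorem main_reads :
    ∀ C₀ : ℝ, 0 < C₀ →
    ∃ c : ℝ, 0 < c ∧ ∃ d₀ : ℕ, ∃ ε₀ : ℝ, 0 < ε₀ ∧ ε₀ < 1 ∧
      ∀ d : ℕ, d₀ ≤ d → ∀ ε : ℝ, 0 < ε → ε ≤ ε₀ → ∀ M : ℕ, (M : ℝ) ≤ C₀ * (d : ℝ) ^ 2 →
        (∀ (T : ℕ) (L : Learner (EuclideanSpace ℝ (Fin d)) (2 ^ M)), L.Succeeds T ε →
          c * d * Real.log (1 / ε) ≤ T) ∧
        ENNReal.ofReal (c * d * Real.log (1 / ε)) ≤ leastMean d M ε ∧
        (∀ (T : ℕ) (L : Learner (EuclideanSpace ℝ (Fin d)) (2 ^ M)),
          L.earlyProb T ε ⌈c * d * Real.log (1 / ε)⌉₊ ≤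
            ENNReal.ofReal (Real.exp (-((d : ℝ) / 16)))) ∧
        (∀ (T : ℕ) (L : Learner (EuclideanSpace ℝ (Fin d)) (2 ^ M)),
          (T : ℝ) < c * d * Real.log (1 / ε) →
          L.successProb T ε ≤ ENNReal.ofReal (Real.exp (-((d : ℝ) / 16)))) ∧
        (d * Real.logb 2 (d / ε) + 11 * d ≤ M →
          (∃ T : ℕ, leastHorizon d M ε = (T : ℕ∞) ∧
            c * d * Real.log (1 / ε) ≤ T ∧ (T : ℝ) ≤ 20 * d * Real.log (1 / ε)) ∧
          leastMean d M ε ≤ ENNReal.ofReal (20 * d * Real.log (1 / ε))) ∧
        ((M : ℝ) ≤ (d - 1) * Real.logb 2 (1 / ε) - 4 * d → leastHorizon d M ε = ⊤) := by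
  intro C₀ hC₀
  obtain ⟨C, -, hmain⟩ := main
  obtain ⟨c, hc, d₀, ε₀, h0, h1, h⟩ := hmain C₀ hC₀
  refine ⟨c / 2, by positivity, max d₀ 32, ε₀, h0, h1, ?_⟩
  intro d hd ε hε hεe M hM
  have hdd : d₀ ≤ d := le_trans (le_max_left _ _) hd
  have hd32 : 32 ≤ d := le_trans (le_max_right _ _) hd
  have hd32' : (32 : ℝ) ≤ d := by exact_mod_cast hd32
  obtain ⟨a1, a2, a3, -, -, a6⟩ := h d hdd ε hε hεe M hM
  have hΛ0 : 0 < Real.log (1 / ε) := by
    apply Real.log_pos
    rw [lt_div_iff₀ hε]; linarith only [hεe, h1]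
  have hW : 0 < c * d * Real.log (1 / ε) := by positivity
  have hhalf : c / 2 * d * Real.log (1 / ε) = c * d * Real.log (1 / ε) / 2 := by ring
  have hle : c / 2 * d * Real.log (1 / ε) ≤ c * d * Real.log (1 / ε) := by
    rw [hhalf]; linarith only [hW]
  -- the tail bound for every `n` with `n - 1 < c d Λ`
  have htail : ∀ (x : ℝ), 0 < x → x ≤ c * d * Real.log (1 / ε) →
      ∀ (T : ℕ) (L : Learner (EuclideanSpace ℝ (Fin d)) (2 ^ M)),
      L.successProb T ε ≤ L.readProb T ⌈x⌉₊ + ENNReal.ofReal (Real.exp (-((d : ℝ) / 16))) := by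
    intro x hx0 hx T L
    by_cases hT : (T : ℝ) < x
    · exact (a2 T L (hT.trans_le hx)).trans le_add_self
    · push Not at hT
      have h2 : 0 < ⌈x⌉₊ := Nat.ceil_pos.2 hx0
      obtain ⟨m, hm⟩ : ∃ m, ⌈x⌉₊ = m + 1 := ⟨⌈x⌉₊ - 1, by omega⟩
      have h3 : (m : ℝ) < x := by
        apply Nat.lt_ceil.1
        omega
      have h4 : m ≤ T := by
        have : (m : ℝ) < T := h3.trans_le hT
        exact le_of_lt (by exact_mod_cast this)
      rw [hm, add_comm]
      exact (successProb_le_add L ε h4).trans (add_le_add (a2 m L (h3.trans_le hx)) le_rfl)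
  have hearly : ∀ (x : ℝ), 0 < x → x ≤ c * d * Real.log (1 / ε) →
      ∀ (T : ℕ) (L : Learner (EuclideanSpace ℝ (Fin d)) (2 ^ M)),
      L.earlyProb T ε ⌈x⌉₊ ≤ ENNReal.ofReal (Real.exp (-((d : ℝ) / 16))) := by
    intro x hx0 hx T L
    by_cases hT : (T : ℝ) < x
    · exact (earlyProb_le_self L ε _ T).trans (a2 T L (hT.trans_le hx))
    · push Not at hT
      have h2 : 0 < ⌈x⌉₊ := Nat.ceil_pos.2 hx0
      obtain ⟨m, hm⟩ : ∃ m, ⌈x⌉₊ = m + 1 := ⟨⌈x⌉₊ - 1, by omega⟩
      have h3 : (m : ℝ) < x := by
        apply Nat.lt_ceil.1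
        omega
      have h4 : m ≤ T := by
        have : (m : ℝ) < T := h3.trans_le hT
        exact le_of_lt (by exact_mod_cast this)
      rw [hm]
      exact (earlyProb_le L ε h4).trans (a2 m L (h3.trans_le hx))
  refine ⟨fun T L hL => hle.trans (a1 T L hL), ?_, hearly _ (by positivity) hle,
    fun T L hT => a2 T L (hT.trans_le hle), ?_, fun hM' => (a3 hM').1⟩
  · refine le_iInf fun T => le_iInf fun L => le_iInf fun hL => ?_
    have h2 := htail _ hW le_rfl T L
    have h3 : (2 / 3 : ℝ≥0∞) ≤ L.successProb T ε := hL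
    have h4 : Real.exp (-((d : ℝ) / 16)) ≤ 1 / 6 := by
      have h5 : Real.exp (-((d : ℝ) / 16)) ≤ Real.exp (-2) := by
        apply Real.exp_le_exp.2
        linarith only [hd32']
      have h6 := Real.exp_neg_one_lt_d9
      have h7 : Real.exp (-2) = Real.exp (-1) * Real.exp (-1) := by
        rw [← Real.exp_add]; norm_num
      have h8 := Real.exp_pos (-1)
      nlinarith only [h5, h6, h7, h8]
    have h5 : ENNReal.ofReal (Real.exp (-((d : ℝ) / 16))) ≤ ENNReal.ofReal (1 / 6) :=
      ENNReal.ofReal_le_ofReal h4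
    have h6 : ENNReal.ofReal (1 / 2) ≤ L.readProb T ⌈c * d * Real.log (1 / ε)⌉₊ := by
      have h7 : ENNReal.ofReal (1 / 2) + ENNReal.ofReal (1 / 6) ≤
          L.readProb T ⌈c * d * Real.log (1 / ε)⌉₊ + ENNReal.ofReal (1 / 6) := by
        calc ENNReal.ofReal (1 / 2) + ENNReal.ofReal (1 / 6)
            = ENNReal.ofReal (2 / 3) := by
              rw [← ENNReal.ofReal_add (by norm_num) (by norm_num)]; norm_num
          _ = 2 / 3 := by
              rw [ENNReal.ofReal_div_of_pos (by norm_num)]; norm_num
          _ ≤ _ := h3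
          _ ≤ _ := h2
          _ ≤ _ := add_le_add le_rfl h5
      exact (ENNReal.add_le_add_iff_right ENNReal.ofReal_ne_top).1 h7
    calc ENNReal.ofReal (c / 2 * d * Real.log (1 / ε))
        = ENNReal.ofReal (c * d * Real.log (1 / ε)) * ENNReal.ofReal (1 / 2) := by
          rw [← ENNReal.ofReal_mul hW.le, hhalf]; congr 1; ring
      _ ≤ (⌈c * d * Real.log (1 / ε)⌉₊ : ℝ≥0∞) * L.readProb T ⌈c * d * Real.log (1 / ε)⌉₊ := by
          apply mul_le_mul' _ h6
          rw [← ENNReal.ofReal_natCast]
          exact ENNReal.ofReal_le_ofReal (Nat.le_ceil _)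
      _ ≤ L.meanReads T := mul_readProb_le L _ T
  · intro hM'
    obtain ⟨T, hT, hT1, hT2⟩ := a6 hM'
    refine ⟨⟨T, hT, hle.trans hT1, hT2⟩, ?_⟩
    obtain ⟨L, -, hL⟩ := leastHorizon_spec hT
    calc leastMean d M ε ≤ L.meanReads T := iInf_le_of_le T (iInf_le_of_le L (iInf_le_of_le hL le_rfl))
      _ ≤ T := meanReads_le (by omega) L T
      _ = ENNReal.ofReal T := (ENNReal.ofReal_natCast T).symm
      _ ≤ ENNReal.ofReal (20 * d * Real.log (1 / ε)) := ENNReal.ofReal_le_ofReal hT2

end P309.LMS
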