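import Vale.Agent.P309.H362.Defs

/-!
# P309: the number of samples read
-/

open MeasureTheory ProbabilityTheory
open scoped ENNReal RealInnerProductSpace

namespace P309

variable {E : Type} [NormedAddCommGroup E] [InnerProductSpace ℝ E] [FiniteDimensional ℝ E]
  [MeasurableSpace E] [BorelSpace E] {N : ℕ}

/-- Probability that a learner which is in state `q` after `t` samples and which may read at most
`k` further samples (signal `s`) reads fewer than `n` further samples and finally outputs a vector at
angle at most `ε` from `s`. -/
noncomputable def Learner.early (L : Learner E N) (ε : ℝ) : ℕ → ℕ → ℕ → Fin N → E → ℝ≥0∞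
  | 0, _, _, _, _ => 0
  | _ + 1, 0, t, q, s => L.good ε t q s
  | n + 1, k + 1, t, q, s => ∫⁻ x, ∫⁻ p, (if p.1 = true then
        (if n = 0 then 0 else L.good ε (t + 1) p.2 s)
      else L.early ε n k (t + 1) p.2 s) ∂(L.step t (q, x, ⟪x, s⟫)) ∂(stdGaussian E)

/-- Expected number of further samples read by a learner which is in state `q` after `t` samples and
which may read at most `k` further samples (signal `s`). -/
noncomputable def Learner.reads (L : Learner E N) : ℕ → ℕ → Fin N → E → ℝ≥0∞
  | 0, _, _, _ => 0
  | k + 1, t, q, s => 1 + ∫⁻ x, ∫⁻ p, (if p.1 = true then 0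
      else L.reads k (t + 1) p.2 s) ∂(L.step t (q, x, ⟪x, s⟫)) ∂(stdGaussian E)

/-- The probability that the learner run with horizon `T` reads fewer than `n` samples and outputs a
vector at angle at most `ε` from the signal, for a uniformly random signal. -/
noncomputable def Learner.earlyProb (L : Learner E N) (T : ℕ) (ε : ℝ) (n : ℕ) : ℝ≥0∞ :=
  ∫⁻ s, ∫⁻ q, L.early ε n T 0 q (s : E) ∂L.init ∂(unifSphere E)

/-- The expected number of samples read by the learner run with horizon `T`, for a uniformly random
signal. -/
noncomputable def Learner.meanReads (L : Learner E N) (T : ℕ) : ℝ≥0∞ :=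
  ∫⁻ s, ∫⁻ q, L.reads T 0 q (s : E) ∂L.init ∂(unifSphere E)

/-- The least expected number of samples read (a uniformly random signal in `ℝ^d`, accuracy `ε`), over
all learners with `M` bits and all horizons for which they succeed. -/
noncomputable def leastMean (d M : ℕ) (ε : ℝ) : ℝ≥0∞ :=
  ⨅ (T : ℕ) (L : Learner (EuclideanSpace ℝ (Fin d)) (2 ^ M)) (_ : L.Succeeds T ε), L.meanReads T

end P309
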