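import Vale.Agent.P309.H362.Moments

/-!
# P309: one step of the block LMS learner with truncation
-/

open MeasureTheory ProbabilityTheory Metric Set Filter
open scoped ENNReal NNReal RealInnerProductSpace

namespace P309.LMS

variable {d : ℕ}

/-- Truncation towards zero to a multiple of `h`. -/
noncomputable def tr (h t : ℝ) : ℝ := h * (((if 0 ≤ t then ⌊t / h⌋ else ⌈t / h⌉) : ℤ) : ℝ)

lemma tr_mem (h t : ℝ) : ∃ m : ℤ, tr h t = h * m := ⟨_, rfl⟩

lemma tr_fix {h : ℝ} (hh : 0 < h) (m : ℤ) : tr h (h * m) = h * m := by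
  unfold tr
  have h1 : h * (m : ℝ) / h = m := by field_simp
  rw [h1, Int.floor_intCast, Int.ceil_intCast, ite_self]

lemma tr_abs_le {h : ℝ} (hh : 0 < h) (t : ℝ) : |tr h t| ≤ |t| := by
  unfold tr
  split_ifs with ht
  · have h1 : 0 ≤ t / h := by positivity
    have h2 : (0 : ℝ) ≤ ⌊t / h⌋ := by exact_mod_cast Int.floor_nonneg.2 h1
    have h3 := Int.floor_le (t / h)
    rw [abs_of_nonneg (by positivity), abs_of_nonneg ht]
    calc h * (⌊t / h⌋ : ℝ) ≤ h * (t / h) := by gcongr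
      _ = t := by field_simp
  · push Not at ht
    have h1 : t / h ≤ 0 := by
      apply div_nonpos_of_nonpos_of_nonneg ht.le hh.le
    have h2 : (⌈t / h⌉ : ℝ) ≤ 0 := by
      have : ⌈t / h⌉ ≤ 0 := Int.ceil_le.2 (by simpa using h1)
      exact_mod_cast this
    have h3 := Int.le_ceil (t / h)
    rw [abs_of_nonpos (mul_nonpos_of_nonneg_of_nonpos hh.le h2), abs_of_neg ht]
    have h4 : h * (t / h) ≤ h * (⌈t / h⌉ : ℝ) := by gcongr
    have h5 : h * (t / h) = t := by field_simp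
    linarith only [h4, h5]

lemma tr_err {h : ℝ} (hh : 0 < h) (t : ℝ) : |tr h t - t| ≤ h := by
  have h5 : h * (t / h) = t := by field_simp
  unfold tr
  split_ifs with ht
  · have h3 := Int.floor_le (t / h)
    have h4 := Int.lt_floor_add_one (t / h)
    rw [abs_le]
    constructor <;> nlinarith only [h3, h4, h5, hh]
  · have h3 := Int.le_ceil (t / h)
    have h4 := Int.ceil_lt_add_one (t / h)
    rw [abs_le]
    constructor <;> nlinarith only [h3, h4, h5, hh]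

lemma measurable_tr (h : ℝ) : Measurable (tr h) := by
  unfold tr
  refine measurable_const.mul (measurable_from_top.comp ?_)
  refine Measurable.ite (measurableSet_le measurable_const measurable_id) ?_ ?_
  · exact Int.measurable_floor.comp (measurable_id.div_const h)
  · exact Int.measurable_ceil.comp (measurable_id.div_const h)

/-- Coordinatewise truncation. -/
noncomputable def trv (h : Fin d → ℝ) (v : Vec d) : Vec d :=
  WithLp.toLp 2 (fun i => tr (h i) (v i))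

@[simp] lemma trv_apply (h : Fin d → ℝ) (v : Vec d) (i : Fin d) : trv h v i = tr (h i) (v i) := rfl

lemma measurable_trv (h : Fin d → ℝ) : Measurable (trv h) := by
  unfold trv
  refine (WithLp.measurable_toLp 2 _).comp ?_
  refine measurable_pi_lambda _ fun i => (measurable_tr (h i)).comp ?_
  fun_prop

lemma norm_sq_eq (v : Vec d) : ‖v‖ ^ 2 = ∑ i, (v i) ^ 2 := by
  rw [EuclideanSpace.real_norm_sq_eq]

lemma norm_trv_le {h : Fin d → ℝ} (hh : ∀ i, 0 < h i) (v : Vec d) : ‖trv h v‖ ≤ ‖v‖ := by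
  have h1 : ‖trv h v‖ ^ 2 ≤ ‖v‖ ^ 2 := by
    rw [norm_sq_eq, norm_sq_eq]
    refine Finset.sum_le_sum fun i _ => ?_
    rw [trv_apply]
    exact sq_le_sq.2 (tr_abs_le (hh i) (v i))
  exact (sq_le_sq₀ (norm_nonneg _) (norm_nonneg _)).1 h1

/-- The points of norm at most `ρ` of the grid with spacings `h`. -/
def Grid (h : Fin d → ℝ) (ρ : ℝ) : Set (Vec d) :=
  {v | ‖v‖ ≤ ρ ∧ ∀ i, ∃ m : ℤ, v i = h i * m}

/-- The LMS step on the block `B`. -/
noncomputable def mv (γ : ℝ) (B : Finset (Fin d)) (z x : Vec d) (y : ℝ) : Vec d :=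
  WithLp.toLp 2 (fun i => if i ∈ B then z i + γ * (y - ⟪x, z⟫) * x i else z i)

lemma mv_apply (γ : ℝ) (B : Finset (Fin d)) (z x : Vec d) (y : ℝ) (i : Fin d) :
    mv γ B z x y i = if i ∈ B then z i + γ * (y - ⟪x, z⟫) * x i else z i := rfl

lemma measurable_mv (γ : ℝ) (B : Finset (Fin d)) :
    Measurable (fun p : Vec d × Vec d × ℝ => mv γ B p.1 p.2.1 p.2.2) := by
  unfold mv
  refine (WithLp.measurable_toLp 2 _).comp ?_
  refine measurable_pi_lambda _ fun i => ?_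
  by_cases hi : i ∈ B
  · simp only [hi, if_true]
    fun_prop
  · simp only [hi, if_false]
    fun_prop

/-- The data of one step: the active block and the grid after the step. -/
structure Stp (d : ℕ) where
  B : Finset (Fin d)
  h : Fin d → ℝ

/-- The update of the learner. -/
noncomputable def upd (γ ρ : ℝ) (st : Stp d) (z x : Vec d) (y : ℝ) : Vec d :=
  if ‖trv st.h (mv γ st.B z x y)‖ ≤ ρ then trv st.h (mv γ st.B z x y) else trv st.h z

lemma measurable_upd (γ ρ : ℝ) (st : Stp d) :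
    Measurable (fun p : Vec d × Vec d × ℝ => upd γ ρ st p.1 p.2.1 p.2.2) := by
  unfold upd
  have h1 := (measurable_trv st.h).comp (measurable_mv γ st.B)
  exact Measurable.ite (measurableSet_le h1.norm measurable_const) h1
    ((measurable_trv st.h).comp measurable_fst)

lemma upd_mem (γ ρ : ℝ) (st : Stp d) (hh : ∀ i, 0 < st.h i) {z : Vec d} (hz : ‖z‖ ≤ ρ) (x : Vec d)
    (y : ℝ) : upd γ ρ st z x y ∈ Grid st.h ρ := by
  unfold upd
  split_ifs with h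
  · exact ⟨h, fun i => tr_mem _ _⟩
  · exact ⟨(norm_trv_le hh z).trans hz, fun i => tr_mem _ _⟩

/-- The potential. -/
noncomputable def pot (s : Vec d) (a : Fin d → ℝ) (c : ℝ) (z : Vec d) : ℝ :=
  ∑ i, a i * (z i - s i) ^ 2 + c

lemma measurable_pot (s : Vec d) (a : Fin d → ℝ) (c : ℝ) : Measurable (pot s a c) := by
  unfold pot
  fun_prop

lemma sq_add_le {η : ℝ} (hη : 0 < η) {u v k : ℝ} (hv : |v| ≤ k) :
    (u + v) ^ 2 ≤ (1 + η) * u ^ 2 + (1 + 1 / η) * k ^ 2 := by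
  have h1 : v ^ 2 ≤ k ^ 2 := by
    rw [← sq_abs v]
    exact pow_le_pow_left₀ (abs_nonneg _) hv 2
  have h2 : (1 + η) * u ^ 2 + (1 + 1 / η) * v ^ 2 - (u + v) ^ 2 = (η * u - v) ^ 2 / η := by
    field_simp
    ring
  have h3 : 0 ≤ (η * u - v) ^ 2 / η := by positivity
  have h4 : (1 + 1 / η) * v ^ 2 ≤ (1 + 1 / η) * k ^ 2 := by gcongr
  linarith only [h2, h3, h4]

lemma tr_sub_sq {η h : ℝ} (hη : 0 < η) (hh : 0 < h) (t u : ℝ) :
    (tr h t - u) ^ 2 ≤ (1 + η) * (t - u) ^ 2 + (1 + 1 / η) * h ^ 2 := by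
  have := sq_add_le hη (u := t - u) (v := tr h t - t) (k := h) (tr_err hh t)
  have e : t - u + (tr h t - t) = tr h t - u := by ring
  rwa [e] at this

/-- The pointwise bound of the potential after one step. -/
theorem pot_upd_le {γ ρ η α c : ℝ} (hη : 0 < η) (hα : 0 ≤ α) {st : Stp d} (hh : ∀ i, 0 < st.h i)
    {a : Fin d → ℝ} (ha : ∀ i ∈ st.B, a i = α) {z s : Vec d} (hs : ‖s‖ = 1)
    (hz : ∀ i ∉ st.B, ∃ m : ℤ, z i = st.h i * m) (hzs : ‖z - s‖ + 1 ≤ ρ) (x : Vec d) :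
    pot s a c (upd γ ρ st z x ⟪x, s⟫) ≤
      α * ((1 + η) * ∑ i ∈ st.B, ((z - s) i - γ * ⟪x, z - s⟫ * x i) ^ 2 +
        (1 + 1 / η) * ∑ i ∈ st.B, (st.h i) ^ 2) + (∑ i ∈ st.Bᶜ, a i * ((z - s) i) ^ 2 + c) := by
  set e : Vec d := z - s with he
  set w : Vec d := mv γ st.B z x ⟪x, s⟫ with hw
  have hei : ∀ i, e i = z i - s i := fun i => rfl
  have hin : ⟪x, s⟫ - ⟪x, z⟫ = -⟪x, e⟫ := by
    rw [he, inner_sub_right]; ring
  have hwB : ∀ i ∈ st.B, w i - s i = e i - γ * ⟪x, e⟫ * x i := by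
    intro i hi
    rw [hw, mv_apply, if_pos hi, hin, hei]
    ring
  have hwC : ∀ i ∉ st.B, w i = z i := by
    intro i hi
    rw [hw, mv_apply, if_neg hi]
  have hzC : ∀ i ∉ st.B, tr (st.h i) (z i) = z i := by
    intro i hi
    obtain ⟨m, hm⟩ := hz i hi
    rw [hm, tr_fix (hh i)]
  -- a general bound
  have key : ∀ z' : Vec d, (∀ i ∉ st.B, z' i = z i) →
      ∑ i ∈ st.B, (z' i - s i) ^ 2 ≤
        (1 + η) * ∑ i ∈ st.B, (e i - γ * ⟪x, e⟫ * x i) ^ 2 +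
        (1 + 1 / η) * ∑ i ∈ st.B, (st.h i) ^ 2 →
      pot s a c z' ≤ α * ((1 + η) * ∑ i ∈ st.B, (e i - γ * ⟪x, e⟫ * x i) ^ 2 +
        (1 + 1 / η) * ∑ i ∈ st.B, (st.h i) ^ 2) + (∑ i ∈ st.Bᶜ, a i * (e i) ^ 2 + c) := by
    intro z' h1 h2
    unfold pot
    rw [← Finset.sum_add_sum_compl st.B, add_assoc]
    have h3 : ∑ i ∈ st.B, a i * (z' i - s i) ^ 2 = α * ∑ i ∈ st.B, (z' i - s i) ^ 2 := by
      rw [Finset.mul_sum]
      exact Finset.sum_congr rfl fun i hi => by rw [ha i hi]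
    have h4 : ∑ i ∈ st.Bᶜ, a i * (z' i - s i) ^ 2 = ∑ i ∈ st.Bᶜ, a i * (e i) ^ 2 := by
      refine Finset.sum_congr rfl fun i hi => ?_
      rw [h1 i (Finset.mem_compl.1 hi), hei]
    rw [h3, h4]
    have := mul_le_mul_of_nonneg_left h2 hα
    linarith only [this]
  have hsum : ∀ v : Vec d, ∑ i ∈ st.B, (tr (st.h i) (v i) - s i) ^ 2 ≤
      (1 + η) * ∑ i ∈ st.B, (v i - s i) ^ 2 + (1 + 1 / η) * ∑ i ∈ st.B, (st.h i) ^ 2 := by
    intro v
    rw [Finset.mul_sum, Finset.mul_sum, ← Finset.sum_add_distrib]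
    exact Finset.sum_le_sum fun i _ => tr_sub_sq hη (hh i) _ _
  unfold upd
  rw [← hw]
  split_ifs with hcase
  · apply key
    · intro i hi
      rw [trv_apply, hwC i hi, hzC i hi]
    · have h1 := hsum w
      have h2 : ∑ i ∈ st.B, (w i - s i) ^ 2 = ∑ i ∈ st.B, (e i - γ * ⟪x, e⟫ * x i) ^ 2 :=
        Finset.sum_congr rfl fun i hi => by rw [hwB i hi]
      rw [h2] at h1
      exact h1
  · apply key
    · intro i hi
      rw [trv_apply, hzC i hi]
    · have h1 := hsum z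
      push Not at hcase
      have h2 : ρ < ‖w‖ := hcase.trans_le (norm_trv_le hh w)
      have h3 : ‖e‖ ≤ ‖w - s‖ := by
        have h4 : ‖w‖ ≤ ‖w - s‖ + ‖s‖ := by
          calc ‖w‖ = ‖(w - s) + s‖ := by congr 1; abel
            _ ≤ _ := norm_add_le _ _
        rw [hs] at h4
        linarith only [h2, h4, hzs]
      have h5 : ‖e‖ ^ 2 ≤ ‖w - s‖ ^ 2 := pow_le_pow_left₀ (norm_nonneg _) h3 2
      rw [norm_sq_eq, norm_sq_eq, ← Finset.sum_add_sum_compl st.B,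
        ← Finset.sum_add_sum_compl st.B (fun i => ((w - s) i) ^ 2)] at h5
      have h6 : ∑ i ∈ st.Bᶜ, ((w - s) i) ^ 2 = ∑ i ∈ st.Bᶜ, (e i) ^ 2 := by
        refine Finset.sum_congr rfl fun i hi => ?_
        rw [hei, PiLp.sub_apply, hwC i (Finset.mem_compl.1 hi)]
      have h7 : ∑ i ∈ st.B, ((w - s) i) ^ 2 = ∑ i ∈ st.B, (e i - γ * ⟪x, e⟫ * x i) ^ 2 :=
        Finset.sum_congr rfl fun i hi => by rw [PiLp.sub_apply, hwB i hi]
      rw [h6, h7] at h5
      have h8 : ∑ i ∈ st.B, (z i - s i) ^ 2 ≤ ∑ i ∈ st.B, (e i - γ * ⟪x, e⟫ * x i) ^ 2 := by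
        have : ∑ i ∈ st.B, (z i - s i) ^ 2 = ∑ i ∈ st.B, (e i) ^ 2 := rfl
        rw [this]
        linarith only [h5]
      have h9 : (1 + η) * ∑ i ∈ st.B, (z i - s i) ^ 2 ≤
          (1 + η) * ∑ i ∈ st.B, (e i - γ * ⟪x, e⟫ * x i) ^ 2 := by gcongr
      refine h1.trans ?_
      linarith only [h9]

/-- The expected potential after one step. -/
theorem lintegral_pot_upd_le {γ ρ η α c c' : ℝ} (hη : 0 < η) (hα : 0 ≤ α) (hc : 0 ≤ c)
    {st : Stp d} (hh : ∀ i, 0 < st.h i)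
    {a a' : Fin d → ℝ} (ha0 : ∀ i, 0 ≤ a i) (ha : ∀ i ∈ st.B, a i = α)
    (haB : ∀ i ∈ st.B, α * (1 + η) * (1 - 2 * γ + 48 * st.B.card * γ ^ 2) ≤ a' i)
    (haC : ∀ i ∉ st.B, a i + α * (1 + η) * (48 * st.B.card * γ ^ 2) ≤ a' i)
    (hcc : c + α * (1 + 1 / η) * ∑ i ∈ st.B, (st.h i) ^ 2 ≤ c')
    {z s : Vec d} (hs : ‖s‖ = 1)
    (hz : ∀ i ∉ st.B, ∃ m : ℤ, z i = st.h i * m) (hzs : ‖z - s‖ + 1 ≤ ρ) :
    ∫⁻ x, ENNReal.ofReal (pot s a c (upd γ ρ st z x ⟪x, s⟫)) ∂(stdGaussian (Vec d)) ≤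
      ENNReal.ofReal (pot s a' c' z) := by
  set e : Vec d := z - s with he
  have hei : ∀ i, e i = z i - s i := fun i => rfl
  set U : Vec d → ℝ := fun x => α * ((1 + η) * ∑ i ∈ st.B, (e i - γ * ⟪x, e⟫ * x i) ^ 2 +
        (1 + 1 / η) * ∑ i ∈ st.B, (st.h i) ^ 2) + (∑ i ∈ st.Bᶜ, a i * (e i) ^ 2 + c) with hU
  have hU0 : ∀ x, 0 ≤ U x := by
    intro x
    have h1 : 0 ≤ ∑ i ∈ st.Bᶜ, a i * (e i) ^ 2 :=
      Finset.sum_nonneg fun i _ => mul_nonneg (ha0 i) (sq_nonneg _)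
    simp only [hU]
    positivity
  have hSi : Integrable (fun x : Vec d => ∑ i ∈ st.B, (e i - γ * ⟪x, e⟫ * x i) ^ 2)
      (stdGaussian (Vec d)) := integrable_finsetSum _ fun i _ => (lms_coord γ e i).1
  have hSv : ∫ x, ∑ i ∈ st.B, (e i - γ * ⟪x, e⟫ * x i) ^ 2 ∂(stdGaussian (Vec d)) ≤
      (1 - 2 * γ) * ∑ i ∈ st.B, (e i) ^ 2 + st.B.card * (48 * γ ^ 2 * ‖e‖ ^ 2) := by
    rw [integral_finsetSum _ fun i _ => (lms_coord γ e i).1]
    calc ∑ i ∈ st.B, ∫ x, (e i - γ * ⟪x, e⟫ * x i) ^ 2 ∂(stdGaussian (Vec d))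
        ≤ ∑ i ∈ st.B, ((1 - 2 * γ) * (e i) ^ 2 + 48 * γ ^ 2 * ‖e‖ ^ 2) :=
          Finset.sum_le_sum fun i _ => (lms_coord γ e i).2
      _ = _ := by
          rw [Finset.sum_add_distrib, ← Finset.mul_sum, Finset.sum_const, nsmul_eq_mul]
  have hUi : Integrable U (stdGaussian (Vec d)) :=
    (((hSi.const_mul _).add (integrable_const _)).const_mul _).add (integrable_const _)
  have hUv : ∫ x, U x ∂(stdGaussian (Vec d)) =
      α * ((1 + η) * ∫ x, ∑ i ∈ st.B, (e i - γ * ⟪x, e⟫ * x i) ^ 2 ∂(stdGaussian (Vec d)) +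
        (1 + 1 / η) * ∑ i ∈ st.B, (st.h i) ^ 2) + (∑ i ∈ st.Bᶜ, a i * (e i) ^ 2 + c) := by
    have i1 : Integrable (fun x : Vec d => (1 + η) * ∑ i ∈ st.B, (e i - γ * ⟪x, e⟫ * x i) ^ 2)
      (stdGaussian (Vec d)) := hSi.const_mul _
    have i2 : Integrable (fun x : Vec d => (1 + η) * ∑ i ∈ st.B, (e i - γ * ⟪x, e⟫ * x i) ^ 2 +
      (1 + 1 / η) * ∑ i ∈ st.B, (st.h i) ^ 2)
      (stdGaussian (Vec d)) := i1.add (integrable_const _)
    simp only [hU]
    rw [integral_add (i2.const_mul _) (integrable_const _), integral_const_mul,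
      integral_add i1 (integrable_const _), integral_const_mul]
    simp only [integral_const, probReal_univ, smul_eq_mul, one_mul]
  calc ∫⁻ x, ENNReal.ofReal (pot s a c (upd γ ρ st z x ⟪x, s⟫)) ∂(stdGaussian (Vec d))
      ≤ ∫⁻ x, ENNReal.ofReal (U x) ∂(stdGaussian (Vec d)) :=
        lintegral_mono fun x => ENNReal.ofReal_le_ofReal (pot_upd_le hη hα hh ha hs hz hzs x)
    _ = ENNReal.ofReal (∫ x, U x ∂(stdGaussian (Vec d))) := by
        rw [ofReal_integral_eq_lintegral_ofReal hUi (Eventually.of_forall hU0)]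
    _ ≤ _ := by
        apply ENNReal.ofReal_le_ofReal
        rw [hUv]
        have h1 : ‖e‖ ^ 2 = ∑ i ∈ st.B, (e i) ^ 2 + ∑ i ∈ st.Bᶜ, (e i) ^ 2 := by
          rw [norm_sq_eq, ← Finset.sum_add_sum_compl st.B]
        have h2 : pot s a' c' z = ∑ i ∈ st.B, a' i * (e i) ^ 2 +
            ∑ i ∈ st.Bᶜ, a' i * (e i) ^ 2 + c' := by
          unfold pot
          rw [← Finset.sum_add_sum_compl st.B]
          rfl
        have h3 : (α * (1 + η) * (1 - 2 * γ + 48 * st.B.card * γ ^ 2)) * ∑ i ∈ st.B, (e i) ^ 2 ≤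
            ∑ i ∈ st.B, a' i * (e i) ^ 2 := by
          rw [Finset.mul_sum]
          exact Finset.sum_le_sum fun i hi => mul_le_mul_of_nonneg_right (haB i hi) (sq_nonneg _)
        have h4 : ∑ i ∈ st.Bᶜ, a i * (e i) ^ 2 +
            (α * (1 + η) * (48 * st.B.card * γ ^ 2)) * ∑ i ∈ st.Bᶜ, (e i) ^ 2 ≤
            ∑ i ∈ st.Bᶜ, a' i * (e i) ^ 2 := by
          rw [Finset.mul_sum, ← Finset.sum_add_distrib]
          refine Finset.sum_le_sum fun i hi => ?_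
          rw [← add_mul]
          exact mul_le_mul_of_nonneg_right (haC i (Finset.mem_compl.1 hi)) (sq_nonneg _)
        have h5 : α * ((1 + η) *
            ∫ x, ∑ i ∈ st.B, (e i - γ * ⟪x, e⟫ * x i) ^ 2 ∂(stdGaussian (Vec d))) ≤
            α * ((1 + η) * ((1 - 2 * γ) * ∑ i ∈ st.B, (e i) ^ 2 +
              st.B.card * (48 * γ ^ 2 * ‖e‖ ^ 2))) := by
          gcongr
        rw [h1] at h5
        rw [h2]
        nlinarith only [h3, h4, h5, hcc]

end P309.LMS
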