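import Vale.Agent.P309.H362.Code

/-!
# P309: periods and sweeps of the block LMS learner
-/

open MeasureTheory ProbabilityTheory Metric Set Filter
open scoped ENNReal NNReal RealInnerProductSpace

namespace P309.LMS

variable {d N : ℕ}

/-- The step size. -/
noncomputable def gam (d : ℕ) : ℝ := 1 / (200000 * d)

lemma gam_pos (hd : 1 ≤ d) : 0 < gam d := by
  have : (0 : ℝ) < d := by exact_mod_cast hd
  unfold gam
  positivity

lemma gam_mul (hd : 1 ≤ d) : gam d * (200000 * d) = 1 := by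
  have : (0 : ℝ) < d := by exact_mod_cast hd
  unfold gam
  field_simp

lemma gam_le (hd : 1 ≤ d) : gam d ≤ 1 / 200000 := by
  have h1 : (1 : ℝ) ≤ d := by exact_mod_cast hd
  have h2 := gam_pos hd
  have h3 := gam_mul hd
  nlinarith only [h1, h2, h3]

lemma card_gam (hd : 1 ≤ d) (B : Finset (Fin d)) :
    48 * (B.card : ℝ) * gam d ^ 2 ≤ gam d / 4 := by
  have h0 : B.card ≤ d := by simpa using Finset.card_le_univ B
  have h1 : (B.card : ℝ) ≤ d := by exact_mod_cast h0
  have h2 := gam_pos hd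
  have h3 := gam_mul hd
  have h4 : (B.card : ℝ) * gam d ≤ d * gam d := by gcongr
  have h5 : d * gam d = 1 / 200000 := by linarith only [h3]
  rw [h5] at h4
  nlinarith only [h2, h4]

/-- The points of norm at most `5` whose coordinates off `B` are multiples of `h`. -/
def Off (h : ℝ) (B : Finset (Fin d)) : Set (Vec d) :=
  {z | ‖z‖ ≤ 5 ∧ ∀ i ∉ B, ∃ m : ℤ, z i = h * m}

lemma grid_sub_off (h : ℝ) (L : ℕ) (B : Finset (Fin d)) : Grid (sp h L B) 5 ⊆ Off h B := by
  intro z hz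
  refine ⟨hz.1, fun i hi => ?_⟩
  obtain ⟨m, hm⟩ := hz.2 i
  exact ⟨m, by rw [hm]; simp [sp, hi]⟩

lemma grid_empty_sub_off (h : ℝ) (L : ℕ) (B : Finset (Fin d)) :
    Grid (sp h L ∅) 5 ⊆ Off h B := by
  intro z hz
  refine ⟨hz.1, fun i hi => ?_⟩
  obtain ⟨m, hm⟩ := hz.2 i
  exact ⟨m, by rw [hm]; simp [sp]⟩

lemma sp_pos {h : ℝ} (hh : 0 < h) {L : ℕ} (hL : 1 ≤ L) (B : Finset (Fin d)) (i : Fin d) :
    0 < sp h L B i := by
  have hL0 : (0 : ℝ) < L := by exact_mod_cast hL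
  unfold sp
  split_ifs <;> positivity

lemma sum_sp_sq (h : ℝ) (L : ℕ) (B : Finset (Fin d)) :
    ∑ i ∈ B, (sp h L B i) ^ 2 = B.card * (h / L) ^ 2 := by
  rw [Finset.sum_congr rfl fun i hi => by rw [show sp h L B i = h / L by simp [sp, hi]],
    Finset.sum_const, nsmul_eq_mul]

lemma sum_sp_empty_sq (h : ℝ) (L : ℕ) (B : Finset (Fin d)) :
    ∑ i ∈ B, (sp h L ∅ i) ^ 2 = B.card * h ^ 2 := by
  rw [Finset.sum_congr rfl fun i hi => by rw [show sp h L ∅ i = h by simp [sp]],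
    Finset.sum_const, nsmul_eq_mul]

/-- A fine step. -/
lemma fine_step (hd : 1 ≤ d) {u0 : Sph d} {ε h α c c' : ℝ} {k L : ℕ} (hh : 0 < h) (hL : 1 ≤ L)
    {B : Finset (Fin d)} {a a' : Fin d → ℝ}
    (hR : Reach N u0 (gam d) ε k (Grid (sp h L B) 5) a c) (hC : Coded N (Grid (sp h L B) 5))
    (hα : 0 ≤ α) (hc : 0 ≤ c) (ha0 : ∀ i, 0 ≤ a i) (ha : ∀ i ∈ B, a i = α)
    (haB : ∀ i ∈ B, α * (1 - gam d) ≤ a' i)
    (haC : ∀ i ∉ B, a i + 96 * α * B.card * gam d ^ 2 ≤ a' i)
    (hcc : c + α * (5 / gam d) * (B.card * (h / L) ^ 2) ≤ c') (ha' : ∀ i, 1 / 16 ≤ a' i) :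
    Reach N u0 (gam d) ε (k + 1) (Off h B) a' c' := by
  have hγ := gam_pos hd
  have hγ1 := gam_le hd
  have hcard := card_gam hd B
  have hη : 0 < gam d / 4 := by positivity
  have hcn : (0 : ℝ) ≤ 48 * (B.card : ℝ) * gam d ^ 2 := by positivity
  refine Reach.step (st := ⟨B, sp h L B⟩) (η := gam d / 4) hR (sp_pos hh hL B) hC hη hα hc ha0 ha
    ?_ ?_ ?_ ha' ?_
  · intro i hi
    refine le_trans ?_ (haB i hi)
    rw [mul_assoc]
    apply mul_le_mul_of_nonneg_left _ hα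
    change (1 + gam d / 4) * (1 - 2 * gam d + 48 * B.card * gam d ^ 2) ≤ 1 - gam d
    nlinarith only [hγ, hγ1, hcard, hcn]
  · intro i hi
    refine le_trans ?_ (haC i hi)
    change a i + α * (1 + gam d / 4) * (48 * B.card * gam d ^ 2) ≤ _
    have h1 : α * (1 + gam d / 4) ≤ α * 2 := by
      apply mul_le_mul_of_nonneg_left _ hα
      linarith only [hγ1]
    have h2 := mul_le_mul_of_nonneg_right h1 hcn
    linarith only [h2]
  · refine le_trans ?_ hcc
    change c + α * (1 + 1 / (gam d / 4)) * ∑ i ∈ B, (sp h L B i) ^ 2 ≤ _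
    rw [sum_sp_sq]
    have h1 : 1 + 1 / (gam d / 4) ≤ 5 / gam d := by
      rw [le_div_iff₀ hγ]
      field_simp
      linarith only [hγ1]
    gcongr
  · intro z hz
    refine ⟨hz.1, fun i hi => ?_⟩
    obtain ⟨m, hm⟩ := hz.2 i hi
    have hi' : i ∉ B := hi
    exact ⟨m, by rw [hm]; simp [sp, hi']⟩

/-- A coarse step. -/
lemma coarse_step (hd : 1 ≤ d) {u0 : Sph d} {ε h α c c' : ℝ} {k L : ℕ} (hh : 0 < h) (hL : 1 ≤ L)
    {B : Finset (Fin d)} {a a' : Fin d → ℝ}
    (hR : Reach N u0 (gam d) ε k (Grid (sp h L ∅) 5) a c)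
    (hC : Coded N (Grid (sp h L (∅ : Finset (Fin d))) 5)) (hα : 0 ≤ α) (hc : 0 ≤ c) (ha0 : ∀ i, 0 ≤ a i) (ha : ∀ i ∈ B, a i = α)
    (haB : ∀ i ∈ B, 2 * α ≤ a' i)
    (haC : ∀ i ∉ B, a i + 96 * α * B.card * gam d ^ 2 ≤ a' i)
    (hcc : c + 2 * α * (B.card * h ^ 2) ≤ c') (ha' : ∀ i, 1 / 16 ≤ a' i) :
    Reach N u0 (gam d) ε (k + 1) (Off h B) a' c' := by
  have hγ := gam_pos hd
  have hγ1 := gam_le hd
  have hcard := card_gam hd B
  have hcn : (0 : ℝ) ≤ 48 * (B.card : ℝ) * gam d ^ 2 := by positivity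
  refine Reach.step (st := ⟨B, sp h L ∅⟩) (η := 1) hR (sp_pos hh hL ∅) hC one_pos hα hc ha0 ha
    ?_ ?_ ?_ ha' ?_
  · intro i hi
    refine le_trans ?_ (haB i hi)
    change α * (1 + 1) * (1 - 2 * gam d + 48 * B.card * gam d ^ 2) ≤ _
    have h1 : 1 - 2 * gam d + 48 * B.card * gam d ^ 2 ≤ 1 := by linarith only [hγ, hcard]
    nlinarith only [h1, hα]
  · intro i hi
    refine le_trans ?_ (haC i hi)
    change a i + α * (1 + 1) * (48 * B.card * gam d ^ 2) ≤ _
    linarith only []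
  · refine le_trans ?_ hcc
    change c + α * (1 + 1 / 1) * ∑ i ∈ B, (sp h L ∅ i) ^ 2 ≤ _
    rw [sum_sp_empty_sq]
    linarith only []
  · intro z hz
    refine ⟨hz.1, fun i hi => ?_⟩
    obtain ⟨m, hm⟩ := hz.2 i hi
    exact ⟨m, by rw [hm]; simp [sp]⟩

/-- A period: `n` fine steps and a coarse step. -/
theorem period (hd : 1 ≤ d) {u0 : Sph d} {ε h α β c b : ℝ} {k L : ℕ} (hh : 0 < h) (hL : 1 ≤ L)
    {B : Finset (Fin d)} {a : Fin d → ℝ}
    (hR : Reach N u0 (gam d) ε k (Grid (sp h L ∅) 5) a c)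
    (hC0 : Coded N (Grid (sp h L (∅ : Finset (Fin d))) 5)) (hC : Coded N (Grid (sp h L B) 5))
    (hc : 0 ≤ c) (ha : ∀ i ∈ B, a i = α) (ha1 : ∀ i, 1 / 16 ≤ a i) (hα : 0 ≤ α)
    (hβ : 1 / 16 ≤ β) (hβα : β ≤ 2 * α) (hb : (B.card : ℝ) ≤ b) (n : ℕ) :
    Reach N u0 (gam d) ε (k + 1 + n) (Off h B)
      (fun i => if i ∈ B then max (2 * α * (1 - gam d) ^ n) β
        else a i + (96 + 192 * n) * α * b * gam d ^ 2)
      (c + 2 * α * b * h ^ 2 + n * (10 / gam d) * α * b * (h / L) ^ 2) := by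
  have hγ := gam_pos hd
  have hγ1 := gam_le hd
  have hb0 : 0 ≤ b := le_trans (by positivity) hb
  have ha0 : ∀ i, 0 ≤ a i := fun i => by linarith only [ha1 i]
  induction n with
  | zero =>
    refine coarse_step hd hh hL hR hC0 hα hc ha0 ha ?_ ?_ ?_ ?_
    · intro i hi
      simp only [hi, if_true, pow_zero, mul_one]
      exact le_max_left _ _
    · intro i hi
      simp only [hi, if_false, Nat.cast_zero, mul_zero, add_zero]
      have : 96 * α * B.card * gam d ^ 2 ≤ 96 * α * b * gam d ^ 2 := by gcongr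
      linarith only [this]
    · have : 2 * α * (B.card * h ^ 2) ≤ 2 * α * (b * h ^ 2) := by gcongr
      simp only [Nat.cast_zero, zero_mul, add_zero]
      linarith only [this]
    · intro i
      split_ifs with hi
      · exact hβ.trans (le_max_right _ _)
      · have h1 : 0 ≤ 96 * α * b * gam d ^ 2 := by positivity
        simp only [Nat.cast_zero, mul_zero, add_zero]
        linarith only [h1, ha1 i]
  | succ n ih =>
    have hg0 : 0 ≤ 1 - gam d := by linarith only [hγ1]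
    have hgp : (1 - gam d) ^ n ≤ 1 := pow_le_one₀ hg0 (by linarith only [hγ])
    have hgp0 : 0 ≤ (1 - gam d) ^ n := pow_nonneg hg0 _
    have hαn : max (2 * α * (1 - gam d) ^ n) β ≤ 2 * α := by
      apply max_le _ hβα
      nlinarith only [hgp, hα]
    have hαn0 : 0 ≤ max (2 * α * (1 - gam d) ^ n) β :=
      le_trans (by linarith only [hβ]) (le_max_right _ _)
    refine fine_step hd hh hL (α := max (2 * α * (1 - gam d) ^ n) β)
      (ih.mono (grid_sub_off h L B) (fun i => le_rfl) le_rfl) hC hαn0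
      (by positivity) ?_ ?_ ?_ ?_ ?_ ?_
    · intro i
      split_ifs with hi
      · exact hαn0
      · have h1 : 0 ≤ (96 + 192 * (n : ℝ)) * α * b * gam d ^ 2 := by positivity
        linarith only [h1, ha0 i]
    · intro i hi
      simp only [hi, if_true]
    · intro i hi
      simp only [hi, if_true]
      rw [max_mul_of_nonneg _ _ hg0]
      apply max_le_max
      · rw [pow_succ]; linarith only []
      · nlinarith only [hγ, hβ]
    · intro i hi
      simp only [hi, if_false]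
      have h1 : 96 * max (2 * α * (1 - gam d) ^ n) β * B.card * gam d ^ 2 ≤
          96 * (2 * α) * b * gam d ^ 2 := by gcongr
      push_cast
      linarith only [h1]
    · have h1 : max (2 * α * (1 - gam d) ^ n) β * (5 / gam d) * (B.card * (h / L) ^ 2) ≤
          (2 * α) * (5 / gam d) * (b * (h / L) ^ 2) := by gcongr
      have h2 : (2 * α) * (5 / gam d) * (b * (h / L) ^ 2) =
          (10 / gam d) * α * b * (h / L) ^ 2 := by ring
      push_cast
      linarith only [h1, h2]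
    · intro i
      split_ifs with hi
      · exact hβ.trans (le_max_right _ _)
      · have h1 : 0 ≤ (96 + 192 * ((n + 1 : ℕ) : ℝ)) * α * b * gam d ^ 2 := by positivity
        linarith only [h1, ha1 i]

end P309.LMS
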